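import Vale.Agent.P144Z.M.Sig
import Vale.Agent.P144Z.H3.Main

/-!
# The main estimate
-/

namespace Vale.Agent.P144Z.Mn

open Finset Matrix Geo Filter Topology

theorem exists_scale {L c J M : ℕ} (hL : 2 ≤ L) (hc : 1 ≤ c) (h : c * sc L J ≤ M) :
    ∃ N, J ≤ N ∧ c * sc L N ≤ M ∧ M ≤ c * sc L (N + 1) := by
  have hex : ∃ n, M ≤ c * sc L (J + n + 1) := by
    refine ⟨M, ?_⟩
    have h1 : M < 2 ^ M := Nat.lt_two_pow_self
    have h2 : 2 ^ M ≤ L ^ M := Nat.pow_le_pow_left hL M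
    have h3 : L ^ M ≤ L ^ (J + M + 1) := Nat.pow_le_pow_right (by omega) (by omega)
    have h4 : sc L (J + M + 1) ≤ c * sc L (J + M + 1) := Nat.le_mul_of_pos_left _ hc
    unfold sc at h4 ⊢
    omega
  classical
  refine ⟨J + Nat.find hex, by omega, ?_, Nat.find_spec hex⟩
  rcases Nat.eq_zero_or_pos (Nat.find hex) with h0 | h0
  · rwa [h0]
  · have := Nat.find_min hex (m := Nat.find hex - 1) (by omega)
    rw [show J + (Nat.find hex - 1) + 1 = J + Nat.find hex by omega] at this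
    omega

theorem prj_inj {M : ℕ} [NeZero M] {u v : ℤ × ℤ} {T : ℕ} (hu : zd u 0 ≤ T) (hv : zd v 0 ≤ T)
    (hM : 4 * T < M) (h : prj M u = prj M v) : u = v := by
  simp only [zd, Prod.fst_zero, Prod.snd_zero, sub_zero] at hu hv
  have e : ∀ z : ℤ, z.natAbs ≤ T → 2 * |z| < M := fun z hz => by
    rw [Int.abs_eq_natAbs]
    omega
  rw [← lft_prj (M := M) (v := u) (e _ (by omega)) (e _ (by omega)), h,
    lft_prj (e _ (by omega)) (e _ (by omega))]

section

variable {L : ℕ} {q : Par} {Z w a b : ℝ}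

theorem exists_dat (hL : 64 ≤ L) (hq : q.Ok) (hw : 0 < w) {N₀ Λ J r M₀ : ℕ}
    (hr : 8 * sc L J ≤ r) (hF : ∀ g : Geo, g.J = J → g.Nice N₀ (Λ + 1) r → M₀ ≤ g.M → ∀ N : ℕ,
      16 * sc L N ≤ g.M → g.M ≤ 16 * sc L (N + 1) → g.FlowB L q N Z w a b)
    {n m : ℕ} (hn : Even n) (hN : n + m ≤ N₀) {x : Fin n → ℤ × ℤ} {y : Fin m → ℤ × ℤ}
    (d : Fin m → Fin 2) (h : Pos x y Λ r) (M : ℕ) [NeZero M]
    (hM : M₀ + 16 * (q.R + 1) + 8 * (Λ * r + 1) + 8 * r ≤ M) :
    ∃ N, Dat (geoM M x y d J) (sec M AA) L q N₀ (Λ + 1) r N Z w a b := by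
  classical
  obtain ⟨N, h1, h2, h3⟩ := exists_scale (L := L) (c := 16) (J := J) (M := M) (by omega) (by omega)
    (by omega)
  obtain ⟨s1, s2, s3, s4, s5⟩ := geoM_spec (M := M) hn d J h (by omega)
  have h8 := eight_le_sc (L := L) (by omega) J
  have ha : ∃ i, Anti (sec M AA) i := sec_anti (by simp [AA])
  have hle : Λ * r + 1 ≤ (Λ + 1) * r := by rw [add_mul]; omega
  have hcard : ((univ.image fun i => prj M (x i)) ∪ univ.image fun k => prj M (y k)).card ≤ N₀ :=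
    (card_union_le _ _).trans ((add_le_add card_image_le card_image_le).trans (by simpa))
  have hnice : (geoM M x y d J).Nice N₀ (Λ + 1) r :=
    { ok := s1
      on := fun _ => rfl
      sep := s2
      cl := ⟨sec M AA, ⟨s3.sign, s3.sign', s3.flat, fun e he => s3.out e (by omega),
        fun f hf => (s3.near f hf).trans hle, s3.sep⟩, ha⟩
      src := fun k => (s4 k).trans (by omega)
      card := ⟨_, hcard,
        fun f hf => by
          obtain ⟨i, rfl⟩ := (s5 f).1 hf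
          exact mem_union_left _ (mem_image_of_mem _ (mem_univ i)),
        fun k => mem_union_right _ (mem_image_of_mem _ (mem_univ k))⟩ }
  have hM' : M₀ ≤ M := by omega
  exact ⟨N, hnice, sec_sign _, sec_flat _, hL, hq, by change _ ≤ M; omega, hr,
    by change _ ≤ M; omega, h2, h1, hw, hF _ rfl hnice hM' N h2 h3,
    hF _ rfl (nice_bare (g := geoM M x y d J) (sec_sign _) (sec_flat _) ha) hM' N h2 h3,
    fun k => hF _ rfl (nice_one hnice (sec_sign _) (sec_flat _) ha k) hM' N h2 h3⟩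

theorem ss_cmp {g g' : Geo} {A' : Gauge g.M} {A'' : Gauge g'.M} {N₀ Λ r N N₁ Λ₁ r' N' : ℕ}
    {w' : ℝ} (D : Dat g A' L q N₀ Λ r N Z w a b) (D' : Dat g' A'' L q N₁ Λ₁ r' N' Z w' a b)
    (hr : r ≤ r') (hJ : g.J ≤ g'.J) {f : g.P} (hf : flux g.A f = -1) {f' : g'.P}
    (hf' : flux g'.A f' = -1) :
    |ss g' A'' L q g'.J f' (r' / 20) - ss g A' L q g.J f (r / 20)| ≤ 9600 * (a / 2 ^ g.J) := by
  rw [← D.ss_univ D' hr hf hf']
  exact D'.ss_close hf' hJ D.hr hr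

theorem exists_sigma (hL : 64 ≤ L) {J₀ : ℕ} (h : ∀ i, ∃ (g : Geo) (A' : Gauge g.M) (N : ℕ) (f : g.P),
      g.J = J₀ + i ∧ flux g.A f = -1 ∧ Dat g A' L q 2 3 (8 * sc L (J₀ + i)) N Z w a b) :
    ∃ σ : ℝ, |σ| ≤ 6400 * a ∧ ∀ (g : Geo) (A' : Gauge g.M) (N₀ Λ r N : ℕ) (w' : ℝ),
      Dat g A' L q N₀ Λ r N Z w' a b → ∀ f, flux g.A f = -1 →
        |ss g A' L q g.J f (r / 20) - σ| ≤ 9600 * (a / 2 ^ g.J) := by
  choose G A N f hJ hf D using h
  set s : ℕ → ℝ := fun i => ss (G i) (A i) L q (G i).J (f i) (8 * sc L (J₀ + i) / 20) with hs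
  have hc : CauchySeq s := by
    refine cauchySeq_of_le_tendsto_0' (fun i => 9600 * (a / 2 ^ (J₀ + i))) (fun i i' hi => ?_) ?_
    · rw [Real.dist_eq, abs_sub_comm, ← hJ i]
      exact ss_cmp (D i) (D i') (Nat.mul_le_mul_left _ (sc_mono (by omega) (by omega)))
        (by rw [hJ, hJ]; omega) (hf i) (hf i')
    · have h1 : Tendsto (fun i : ℕ => (2 : ℝ) ^ (J₀ + i)) atTop atTop :=
        (tendsto_pow_atTop_atTop_of_one_lt one_lt_two).comp 
          (tendsto_atTop_mono (fun i => Nat.le_add_left i J₀) tendsto_id)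
      simpa using (h1.const_div_atTop a).const_mul 9600
  obtain ⟨σ, hσ⟩ := cauchySeq_tendsto_of_complete hc
  refine ⟨σ, le_of_tendsto' hσ.abs fun i => (D i).ss_le (hf i), fun g A' N₀ Λ r N' w' D' f' hf' => ?_⟩
  rw [abs_sub_comm]
  refine le_of_tendsto (hσ.sub_const _).abs ?_
  filter_upwards [eventually_ge_atTop (g.J + r)] with i hi
  refine ss_cmp D' (D i) ?_ (by rw [hJ]; omega) hf' (hf i)
  have h1 : J₀ + i < 2 ^ (J₀ + i) := Nat.lt_two_pow_self
  have h2 : 2 ^ (J₀ + i) ≤ L ^ (J₀ + i) := Nat.pow_le_pow_left (by omega) _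
  unfold sc
  omega

open Classical in
theorem Dat.final {g : Geo} {A' : Gauge g.M} {N₀ Λ r N : ℕ} (D : Dat g A' L q N₀ Λ r N Z w a b)
    {σ : ℝ} {n m : ℕ} (hn : (univ.filter fun f => flux g.A f = -1).card = n)
    (hm : Fintype.card g.K = m)
    (hσ : ∀ f, flux g.A f = -1 → |ss g A' L q g.J f (r / 20) - σ| ≤ 9600 * (a / 2 ^ g.J))
    (top : g.E →ₗ[ℝ] ℝ) (hs : ∀ F, top (g.scB Z F) = Z ^ Fintype.card g.K * top F)
    (ht : ∀ F, (w * sc L g.J) ^ Fintype.card g.K * |top F| ≤ g.ps (w * sc L g.J) univ F) :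
    (w * sc L g.J) ^ m * |top (NormedSpace.exp (WW g A' L q N)) -
      Real.exp (n * σ) * Z ^ m * top (NormedSpace.exp (WW g A' L par0 N))| ≤
      Real.exp (n * σ) * Real.exp ((m + 2) * ((1600 * N₀ + 2) * b)) * (Real.exp
        (((m + 2) * ((1600 * N₀ + 1) * (2 * 4 ^ m * (m + 1).factorial + 2)) + n * 9600) * a /
          2 ^ g.J) - 1) := by
  subst hm
  have hβ := D.wpos g.J
  have hsum : |∑ f ∈ univ.filter (fun f => flux g.A f = -1), ss g A' L q g.J f (r / 20) - n * σ| ≤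
      n * (9600 * (a / 2 ^ g.J)) := by
    have h1 := sum_le_card_nsmul _ _ _ fun f (hf : f ∈ univ.filter fun f => flux g.A f = -1) =>
      hσ f (mem_filter.1 hf).2
    have h2 := (abs_sum_le_sum_abs _ _).trans h1
    rwa [sum_sub_distrib, sum_const, hn, nsmul_eq_mul, nsmul_eq_mul] at h2
  refine top_le D.nice.ok.sign hβ top hs ht (WW_mem D.nice.ok L q N)
    (scB_mem Z (WW_mem D.nice.ok L par0 N)) ?_ D.size
  have h2 := (ps_scalar D.nice.ok.sign hβ (U := univ) _).trans hsum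
  have h3 := (ps_add D.nice.ok.sign hβ _ _).trans (add_le_add D.err h2)
  rw [sub_smul] at h3
  refine le_trans (le_of_eq (congrArg _ ?_)) (h3.trans (le_of_eq ?_))
  · abel
  · ring

end

theorem small_exp (c K : ℝ) {ε : ℝ} (hε : 0 < ε) :
    ∃ J₁ : ℕ, ∀ J ≥ J₁, c * (Real.exp (K / 2 ^ J) - 1) ≤ ε := by
  have h1 : Tendsto (fun J : ℕ => K / (2 : ℝ) ^ J) atTop (𝓝 0) :=
    (tendsto_pow_atTop_atTop_of_one_lt one_lt_two).const_div_atTop K
  have h2 : Tendsto (fun J : ℕ => c * (Real.exp (K / 2 ^ J) - 1)) atTop (𝓝 (c * (Real.exp 0 - 1))) :=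
    (((Real.continuous_exp.tendsto 0).comp h1).sub_const 1).const_mul c
  rw [Real.exp_zero, sub_self, mul_zero] at h2
  exact eventually_atTop.1 (h2.eventually (ge_mem_nhds hε))

end Mn

open Mn Finset Geo in
theorem mainStmt_of (hF : FlowStmt) : MainStmt := by
  classical
  obtain ⟨L₀, hF⟩ := hF
  refine ⟨max L₀ 64, fun L hL ε hε => ?_⟩
  have hL64 : 64 ≤ L := le_of_max_le_right hL
  obtain ⟨C, hC, η₀, hη₀, hF⟩ := hF L (le_of_max_le_left hL)
  set η := min η₀ (min ε 1 / (20000 * C)) with hη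
  have hm0 : 0 < min ε 1 := lt_min hε one_pos
  have hη0 : 0 < η := lt_min hη₀ (by positivity)
  have hCη : C * η ≤ min ε 1 / 20000 := by
    calc C * η ≤ C * (min ε 1 / (20000 * C)) :=
          mul_le_mul_of_nonneg_left (min_le_right _ _) (by linarith)
      _ = _ := by field_simp
  have hm1 := min_le_left ε 1
  have hm2 := min_le_right ε 1
  refine ⟨η, hη0, fun R => ?_⟩
  obtain ⟨δ₀, hδ₀, hF⟩ := hF η hη0 (min_le_left _ _) R
  refine ⟨δ₀, hδ₀, fun q hqR hq => ?_⟩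
  obtain ⟨Z, hZ, hF⟩ := hF q hqR hq
  obtain ⟨σ, hσ, hσ'⟩ : ∃ σ : ℝ, |σ| ≤ 6400 * (C * η) ∧ ∀ (g : Geo) (A' : Gauge g.M)
      (N₀ Λ r N : ℕ) (w' : ℝ), Dat g A' L q N₀ Λ r N Z w' (C * η) C → ∀ f, flux g.A f = -1 →
        |ss g A' L q g.J f (r / 20) - σ| ≤ 9600 * (C * η / 2 ^ g.J) := by
    obtain ⟨w, hw, J₀, h⟩ := hF 2 3 (by norm_num)
    refine exists_sigma hL64 (w := w) (J₀ := J₀) fun i => ?_
    obtain ⟨M₀, h⟩ := h (J₀ + i) (by omega) (8 * sc L (J₀ + i)) le_rfl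
      (Nat.mul_le_mul_left _ (sc_mono (by omega) (by omega)))
    set r := 8 * sc L (J₀ + i) with hr
    have h8 := eight_le_sc (L := L) (by omega) (J₀ + i)
    have hp : Pos ![((0, 0) : ℤ × ℤ), (2 * r, 0)] (![] : Fin 0 → ℤ × ℤ) 2 r :=
      ⟨fun i => by fin_cases i <;> simp [zd] <;> omega, fun k => k.elim0,
        fun i i' h => by
          fin_cases i <;> fin_cases i' <;> simp [zd] at h ⊢ <;> omega,
        fun _ k => k.elim0, fun k => k.elim0⟩
    have : NeZero (M₀ + 16 * (q.R + 1) + 8 * (2 * r + 1) + 8 * r) := ⟨by omega⟩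
    obtain ⟨N, D⟩ := exists_dat hL64 hq.ok hw le_rfl h (n := 2) (m := 0) (by norm_num) le_rfl ![]
      hp _ le_rfl
    exact ⟨_, _, N, prj _ (0, 0), rfl,
      ((geoM_spec (by norm_num) ![] (J₀ + i) hp (by omega)).2.2.2.2 _).2 ⟨0, rfl⟩, D⟩
  refine ⟨Real.exp σ, Z, ?_, by linarith, fun n m Λ hn ε' hε' => ?_⟩
  · have := Real.abs_exp_sub_one_le (x := σ) (by linarith)
    linarith
  obtain ⟨w, hw, J₀, h⟩ := hF (n + m) (Λ + 1) (by omega)
  set K : ℝ := (m + 2) * ((1600 * (n + m : ℕ) + 1) * (2 * 4 ^ m * (m + 1).factorial + 2)) +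
    n * 9600 with hK
  set B : ℝ := (m + 2) * ((1600 * (n + m : ℕ) + 2) * C) with hB
  obtain ⟨J₁, hJ₁⟩ := small_exp ((8 * L / w) ^ m * (Real.exp (n * σ) * Real.exp B)) (K * (C * η))
    hε'
  refine ⟨8 * sc L (max J₀ J₁), fun r hr x y d hp => ?_⟩
  obtain ⟨J, hJ, hr1, hr2⟩ := exists_scale (L := L) (c := 8) (by omega) (by omega) hr
  obtain ⟨M₀, h⟩ := h J (le_of_max_le_left hJ) r hr1 hr2
  refine ⟨M₀ + 16 * (q.R + 1) + 8 * (Λ * r + 1) + 8 * r, fun M _ hM => ?_⟩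
  obtain ⟨N, D⟩ := exists_dat hL64 hq.ok hw hr1 h hn le_rfl d hp M hM
  obtain ⟨top, ht1, ht2, ht3⟩ := exists_top (geoM M x y d J)
  have h0 : Zw par0 (sec M AA) 1 ≠ 0 := (free_sec (M := M) (by omega)).2.ne'
  have hZ0 : q.Z ≠ 0 := by have := hq.ok.Z_lo; positivity
  have e1 : mix q M x y d = _ := mix_eq D.nice.ok D.sign D.nice.on hZ0 D.B.conv D.B0.conv
    (fun k => (D.B1 k).conv) D.B.inv D.B0.inv h0 top ht1
  have e2 : mix par0 M x y d = _ := mix_eq D.nice.ok D.sign D.nice.on (q := par0) one_ne_zero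
    D.B.conv0 D.B0.conv0 (fun k => (D.B1 k).conv0) D.B.inv D.B0.inv h0 top ht1
  have hfl : (univ.filter fun f : Tor M => flux (sec M AA * spinG M 0 x) f = -1).card = n := by
    have : (univ.filter fun f : Tor M => flux (sec M AA * spinG M 0 x) f = -1) =
        univ.image fun i => prj M (x i) := by
      ext f
      have h1 : flux (sec M AA * spinG M 0 x) f = -1 ↔ ∃ i, f = prj M (x i) :=
        (geoM_spec (M := M) hn d J hp (by omega)).2.2.2.2 f
      rw [mem_filter, h1, mem_image]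
      simp [eq_comm]
    rw [this, card_image_of_injective, card_univ, Fintype.card_fin]
    intro i i' hi
    by_contra hne
    have h1 := hp.xx i i' hne
    rw [prj_inj (hp.xle i) (hp.xle i') (by omega) hi] at h1
    simp [zd] at h1
  have h5 : (w * sc L J) ^ m * _ ≤ Real.exp (n * σ) * Real.exp B *
      (Real.exp (K * (C * η) / 2 ^ J) - 1) := D.final hfl (Fintype.card_fin m)
    (hσ' _ _ _ _ _ _ _ D) top (ht2 Z) (ht3 1 1 _ D.nice.ok.sign le_rfl one_pos (D.wpos J))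
  have h6 := hJ₁ J (le_of_max_le_right hJ)
  rw [e1, e2, ← Real.exp_nat_mul, mul_left_comm, ← mul_sub, abs_mul, mul_comm]
  refine mul_le_mul_of_nonneg_right ?_ (abs_nonneg _)
  have h8 := eight_le_sc (L := L) (by omega) J
  have hr0 : (0 : ℝ) < r := by exact_mod_cast (by omega : 0 < r)
  rw [le_div_iff₀ (by positivity)]
  have h7 : (r : ℝ) ≤ 8 * L / w * (w * sc L J) := by
    have : r ≤ 8 * L * sc L J := by
      rw [sc_eq (Nat.le_succ J)] at hr2
      simpa [mul_assoc] using hr2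
    have h' : (r : ℝ) ≤ 8 * L * sc L J := by exact_mod_cast this
    refine h'.trans (le_of_eq ?_)
    field_simp
  have h9 : (r : ℝ) ^ m ≤ (8 * L / w) ^ m * (w * sc L J) ^ m := by
    rw [← mul_pow]
    exact pow_le_pow_left₀ hr0.le h7 m
  refine (mul_le_mul_of_nonneg_left h9 (abs_nonneg _)).trans (le_trans ?_ h6)
  rw [mul_left_comm, mul_assoc ((8 * L / w) ^ m)]
  refine mul_le_mul_of_nonneg_left ?_ (pow_nonneg (by positivity) m)
  rw [mul_comm]
  exact h5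

end Vale.Agent.P144Z
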