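import Vale.Agent.P144Z.M.Br
import Vale.Agent.P144Z.C.Main

/-!
# The main estimate: the exact formula for the mixed correlations
-/

namespace Vale.Agent.P144Z.Mn

open Finset Matrix Geo

variable {g : Geo}

theorem exp_add' (F G : g.E) :
    NormedSpace.exp (F + G) = NormedSpace.exp F * NormedSpace.exp G :=
  KP.exp_add' F G

theorem exp_smul_one (c : ℝ) : NormedSpace.exp (c • (1 : g.E)) = Real.exp c • (1 : g.E) := by
  rw [← Algebra.algebraMap_eq_smul_one, ← Algebra.algebraMap_eq_smul_one]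
  exact A2.exp_scalar c

theorem exp_bv (c : ℝ) (k : g.K) : NormedSpace.exp (c • g.bv k) = 1 + c • g.bv k :=
  exp_sq_zero (by rw [smul_mul_smul_comm, bv_sq, smul_zero])

theorem last_mem (hg : g.Ok) (L : ℕ) (q : Par) (N : ℕ) (U : Finset g.P) :
    g.noF (g.last L q N U) ∈ g.sub U :=
  noF_mem ((wf_flow hg L q 0 N).Cl_mem (covL_anti (isD_Dm hg.sign).anti _) U)

theorem tot_mem (hg : g.Ok) (L : ℕ) (q : Par) (N : ℕ) :
    g.tot L q N ∈ g.sub univ ∧ g.noF (g.tot L q N) = g.tot L q N := by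
  rw [tot_eq_cs]
  refine ⟨add_mem (sum_mem fun j _ => sum_mem fun U _ => mem_univ_sub (cs_mem hg L q j U).1)
    (sum_mem fun U _ => mem_univ_sub (last_mem hg L q N U)), ?_⟩
  simp only [map_add, map_sum, noF_noF, fun j U => (cs_mem hg L q j U).2]

theorem Zw_one_eq (hg : g.Ok) {L : ℕ} {q : Par} (hZ : q.Z ≠ 0) {N : ℕ} (hc : g.Conv L q N)
    (hD : ∀ v, Dm g.A *ᵥ v = 0 → v = 0) : Zw q g.A 1 =
      (q.Z ^ (2 * g.M ^ 2))⁻¹ * Zw par0 g.A 1 * Real.exp (ag g (g.tot L q N)) := by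
  have h := congrArg (ag g) (gen_inv hg hZ hc hD)
  simp only [map_sum, map_smul, ag_apply, aug_exp, smul_eq_mul] at h
  simp only [← ag_apply, ag_bv, mul_zero, sum_const_zero, Real.exp_zero] at h
  rw [← h, Zw]
  rfl

theorem see_en (hg : g.Ok) (k : g.K) (hon : (g.src k).on = true) (n : g.Cfg) :
    (g.src k).O (g.see (g.src k).y n) = sgn (n ((g.src k).y, (g.src k).dir)) := by
  rw [((hg.src k).en hon).2]
  simp only [Geo.see]
  rw [show prj g.M (0, 0) = 0 from G.prj_zero, add_zero]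

variable {A' : Gauge g.M}

theorem en_eq (hg : g.Ok) (hA' : IsSign A') (k : g.K) (hon : (g.src k).on = true) {L : ℕ} {q : Par}
    (hZ : q.Z ≠ 0) {N : ℕ} (hc : (one g A' k).Conv L q N) (hD : ∀ v, Dm A' *ᵥ v = 0 → v = 0)
    (h0 : Zw par0 A' 1 ≠ 0) :
    Zw q A' (fun c => sgn (c ((g.src k).y, (g.src k).dir))) / Zw q A' 1 =
      cf (one g A' k) () ((one g A' k).tot L q N) := by
  have hg1 := ok_one hg hA' k
  have h1 := Zw_one_eq hg1 hZ hc hD
  have h2 := congrArg (cf (one g A' k) ()) (gen_inv hg1 hZ hc hD)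
  obtain ⟨hm, hn⟩ := tot_mem hg1 L q N
  have h3 := src_one hm hn () fun _ _ => rfl
  set a := ag _ ((one g A' k).tot L q N)
  set c := cf (one g A' k) () ((one g A' k).tot L q N)
  rw [h3, exp_add', exp_smul_one, exp_bv] at h2
  simp only [univ_unique, sum_singleton, exp_bv, map_sum, map_smul, map_add, cf_one, cf_bv,
    smul_eq_mul, smul_mul_assoc, one_mul, mul_one, zero_add] at h2
  have h4 : Zw q A' (fun c => sgn (c ((g.src k).y, (g.src k).dir))) =
      (q.Z ^ (2 * g.M ^ 2))⁻¹ * Zw par0 A' 1 * (Real.exp a * c) := by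
    rw [← h2, Zw]
    refine sum_congr rfl fun n _ => ?_
    rw [← see_en hg k hon n]
    rfl
  have h5 : Zw q A' 1 = (q.Z ^ (2 * g.M ^ 2))⁻¹ * Zw par0 A' 1 * Real.exp a := h1
  rw [h4, h5]
  have := pow_ne_zero (2 * g.M ^ 2) hZ
  have := (Real.exp_pos a).ne'
  field_simp

/-- The exponent of the generating function of the centred energies. -/
noncomputable def WW (g : Geo) (A' : Gauge g.M) (L : ℕ) (q : Par) (N : ℕ) : g.E :=
  br g A' (g.tot L q N) ((bare g A').tot L q N) (fun k => (one g A' k).tot L q N)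

theorem mix_eq (hg : g.Ok) (hA' : IsSign A') (hon : ∀ k, (g.src k).on = true) {L : ℕ} {q : Par}
    (hZ : q.Z ≠ 0) {N : ℕ} (hc : g.Conv L q N) (hc0 : (bare g A').Conv L q N)
    (hc1 : ∀ k, (one g A' k).Conv L q N) (hD : ∀ v, Dm g.A *ᵥ v = 0 → v = 0)
    (hD' : ∀ v, Dm A' *ᵥ v = 0 → v = 0) (h0 : Zw par0 A' 1 ≠ 0) (top : g.E →ₗ[ℝ] ℝ)
    (ht : ∀ a : g.K → ℝ, top (NormedSpace.exp (∑ k, a k • g.bv k)) = ∏ k, a k) :
    Zw q g.A (fun c => ∏ k, (sgn (c ((g.src k).y, (g.src k).dir)) -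
        Zw q A' (fun c => sgn (c ((g.src k).y, (g.src k).dir))) / Zw q A' 1)) / Zw q A' 1 =
      Zw par0 g.A 1 / Zw par0 A' 1 * top (NormedSpace.exp (WW g A' L q N)) := by
  simp only [fun k => en_eq hg hA' k (hon k) hZ (hc1 k) hD' h0]
  have h5 : Zw q A' 1 = (q.Z ^ (2 * g.M ^ 2))⁻¹ * Zw par0 A' 1 *
      Real.exp (ag _ ((bare g A').tot L q N)) := Zw_one_eq (ok_bare hA') hZ hc0 hD'
  set a := ag _ ((bare g A').tot L q N) with ha
  set c := fun k => cf (one g A' k) () ((one g A' k).tot L q N) with hcc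
  have h1 := congrArg (fun F => top (F * NormedSpace.exp (-∑ k, c k • g.bv k)))
    (gen_inv hg hZ hc hD)
  simp only [sum_mul, smul_mul_assoc, ← exp_add', map_sum, map_smul, smul_eq_mul] at h1
  have h2 : g.tot L q N + -∑ k, c k • g.bv k = a • (1 : g.E) + WW g A' L q N := by
    rw [WW, br]
    abel
  have h3 : ∀ n : g.Cfg, ∑ k, (g.src k).O (g.see (g.src k).y n) • g.bv k + -∑ k, c k • g.bv k
      = ∑ k, (sgn (n ((g.src k).y, (g.src k).dir)) - c k) • g.bv k := by
    intro n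
    simp only [sub_smul, sum_sub_distrib, see_en hg _ (hon _)]
    rw [sub_eq_add_neg]
  simp only [h3, ht] at h1
  rw [h2, exp_add', exp_smul_one, smul_mul_assoc, one_mul, map_smul, smul_eq_mul] at h1
  have h4 : Zw q g.A (fun n => ∏ k, (sgn (n ((g.src k).y, (g.src k).dir)) - c k)) =
      (q.Z ^ (2 * g.M ^ 2))⁻¹ * Zw par0 g.A 1 *
        (Real.exp a * top (NormedSpace.exp (WW g A' L q N))) := h1
  rw [h4, h5]
  have := pow_ne_zero (2 * g.M ^ 2) hZ
  have := (Real.exp_pos a).ne'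
  field_simp

theorem WW_mem (hg : g.Ok) (L : ℕ) (q : Par) (N : ℕ) : WW g A' L q N ∈ g.sub univ :=
  br_mem (tot_mem hg L q N).1 _ _

/-- The subtracted constants. -/
noncomputable def Br (g : Geo) (A' : Gauge g.M) (L : ℕ) (q : Par) (j : ℕ) (U : Finset g.P) : g.E :=
  br g A' (g.cs L q j U) ((bare g A').cs L q j U) (fun k => (one g A' k).cs L q j U)

/-- The subtracted constants of the last step. -/
noncomputable def BrL (g : Geo) (A' : Gauge g.M) (L : ℕ) (q : Par) (N : ℕ) (U : Finset g.P) : g.E :=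
  br g A' (g.noF (g.last L q N U)) ((bare g A').noF ((bare g A').last L q N U))
    (fun k => (one g A' k).noF ((one g A' k).last L q N U))

theorem WW_eq (L : ℕ) (q : Par) (N : ℕ) : WW g A' L q N =
    ∑ j ∈ range (N + 1), ∑ U, Br g A' L q j U + ∑ U, BrL g A' L q N U := by
  simp only [WW, tot_eq_cs, Br, BrL]
  simp only [← br_sum, ← br_add]

/-- From the exponents to the top coefficients. -/
theorem top_le (hA : IsSign g.A) {β : ℝ} (hβ : 0 < β) (top : g.E →ₗ[ℝ] ℝ) {s : ℝ}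
    (hs : ∀ F, top (g.scB s F) = s ^ Fintype.card g.K * top F)
    (ht : ∀ F, β ^ Fintype.card g.K * |top F| ≤ g.ps β univ F) {W W₀ : g.E}
    (hW : W ∈ g.sub univ) (hW₀ : g.scB s W₀ ∈ g.sub univ) {c e b : ℝ}
    (he : g.ps β univ (W - c • 1 - g.scB s W₀) ≤ e) (hb : g.ps β univ (g.scB s W₀) ≤ b) :
    β ^ Fintype.card g.K * |top (NormedSpace.exp W) -
      Real.exp c * s ^ Fintype.card g.K * top (NormedSpace.exp W₀)| ≤
      Real.exp c * Real.exp b * (Real.exp e - 1) := by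
  have h1 : NormedSpace.exp W - Real.exp c • g.scB s (NormedSpace.exp W₀) =
      Real.exp c • (NormedSpace.exp (g.scB s W₀) *
        (NormedSpace.exp (W - c • 1 - g.scB s W₀) - 1)) := by
    rw [hom_exp (g.scB s) (scB_one s) (scB_mul s), mul_sub, mul_one, smul_sub, ← exp_add',
      ← one_mul (NormedSpace.exp (g.scB s W₀ + _)), ← smul_mul_assoc, ← exp_smul_one, ← exp_add']
    congr 2
    abel
  have h2 := ht (NormedSpace.exp W - Real.exp c • g.scB s (NormedSpace.exp W₀))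
  rw [map_sub, map_smul, hs, smul_eq_mul, ← mul_assoc] at h2
  refine h2.trans ?_
  rw [h1, ps_smul hA hβ, abs_of_pos (Real.exp_pos c), mul_assoc]
  refine mul_le_mul_of_nonneg_left ((ps_mul hA hβ _ _).trans ?_) (Real.exp_pos c).le
  have h3 := ps_exp hA hβ hW₀
  have h4 := ps_exp hA hβ (sub_mem (sub_mem hW (Subalgebra.smul_mem _ (one_mem _) c)) hW₀)
  have h5 : g.ps β univ (NormedSpace.exp (g.scB s W₀)) ≤ Real.exp b := by
    have h6 := ps_add hA hβ (U := univ) (NormedSpace.exp (g.scB s W₀) - 1) 1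
    rw [sub_add_cancel] at h6
    have h7 := ps_one hA hβ (U := univ)
    have h8 := Real.exp_le_exp.2 hb
    linarith
  have h9 := Real.exp_le_exp.2 he
  exact mul_le_mul h5 (by linarith) (ps_nonneg _) (Real.exp_pos b).le

end Vale.Agent.P144Z.Mn
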