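import Vale.Agent.P144Z.TopM
import Vale.Agent.P144Z.G.Main
import Vale.Agent.P144Z.A1.Main
import Vale.Agent.P144Z.A2.Main
import Vale.Agent.P144Z.A3.Main
import Vale.Agent.P144Z.B1.Main
import Vale.Agent.P144Z.R1.Main
import Vale.Agent.P144Z.R3W.Main
import Vale.Agent.P144Z.R6.Main
import Vale.Agent.P144Z.R9.Main

/-!
# The main estimate: norms of the algebra of the sources, sums over bad sets
-/

namespace Vale.Agent.P144Z.Mn

open Finset Matrix Geo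

section anch

variable {M : ℕ} [NeZero M]

theorem anch_mono {ℓ : ℕ} {τ ε : ℝ} {f f' : Finset (Tor M) → ℝ} (h : ∀ X, f' X ≤ f X)
    (hA : Anch ℓ τ f ε) : Anch ℓ τ f' ε := fun z =>
  (sum_le_sum fun X _ => mul_le_mul_of_nonneg_right (h X) (Real.exp_pos _).le).trans (hA z)

open Classical in
/-- The large sets have a small anchored sum. -/
theorem anch_cut {ℓ : ℕ} {τ ε : ℝ} (hτ : 0 ≤ τ) {f : Finset (Tor M) → ℝ} (hf : ∀ X, 0 ≤ f X)
    (hA : Anch ℓ (2 * τ) f ε) (T : ℕ) :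
    Anch ℓ τ (fun X => if T ≤ stein X then f X else 0) (Real.exp (-(τ * T / ℓ)) * ε) := by
  intro z
  refine le_trans ?_ (mul_le_mul_of_nonneg_left (hA z) (Real.exp_pos _).le)
  rw [mul_sum]
  refine sum_le_sum fun X _ => ?_
  have hl : (0 : ℝ) ≤ ℓ := Nat.cast_nonneg _
  beta_reduce
  split_ifs with h
  · rw [mul_left_comm, ← Real.exp_add]
    refine mul_le_mul_of_nonneg_left (Real.exp_le_exp.2 ?_) (hf X)
    have h1 : (T : ℝ) ≤ stein X := by exact_mod_cast h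
    have h2 : τ * T / ℓ ≤ τ * stein X / ℓ :=
      div_le_div_of_nonneg_right (mul_le_mul_of_nonneg_left h1 hτ) hl
    have h3 : 2 * τ * (stein X : ℝ) / ℓ = τ * stein X / ℓ + τ * stein X / ℓ := by ring
    linarith
  · rw [zero_mul]
    exact mul_nonneg (Real.exp_pos _).le (mul_nonneg (hf X) (Real.exp_pos _).le)

theorem near_sum {ℓ : ℕ} (h1 : 1 ≤ ℓ) {τ ε : ℝ} (hτ : 8 ≤ τ) {f : Finset (Tor M) → ℝ}
    (hf : ∀ X, 0 ≤ f X) (hA : Anch ℓ τ f ε) (c : Tor M) (S : Finset (Finset (Tor M)))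
    (hS : ∀ X ∈ S, ∃ x ∈ X, tdist c x ≤ 2 * stein X + 3 * ℓ) : ∑ X ∈ S, f X ≤ 1600 * ε := by
  classical
  have h := Anch.near h1 hτ hf hA c (3 * ℓ)
  have hl : (ℓ : ℝ) ≠ 0 := by positivity
  have e : ((3 * ℓ : ℕ) : ℝ) / ℓ + 1 = 4 := by push_cast; field_simp; norm_num
  rw [e] at h
  refine le_trans (sum_le_sum_of_subset_of_nonneg ?_ fun X _ _ => hf X) (h.trans (le_of_eq ?_))
  · intro X hX
    obtain ⟨x, hx, hd⟩ := hS X hX
    refine mem_filter.2 ⟨mem_univ _, x, hx, ?_⟩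
    rw [tdist_comm]
    omega
  · ring

theorem top_sum {ℓ : ℕ} (h1 : 1 ≤ ℓ) (hM : 16 * ℓ ≤ M) {τ ε : ℝ} (hτ : 64 ≤ τ)
    {f : Finset (Tor M) → ℝ} (hf : ∀ X, 0 ≤ f X) (hA : Anch ℓ τ f ε)
    (S : Finset (Finset (Tor M))) (hS : ∀ X ∈ S, M ≤ 4 * (2 * stein X + 3 * ℓ)) :
    ∑ X ∈ S, f X ≤ ε := by
  classical
  have hε := G.anch_nonneg hf hA
  have h := Anch.large h1 (by linarith) hf hA ((M + 31) / 32) (by omega)
  refine le_trans (sum_le_sum_of_subset_of_nonneg ?_ fun X _ _ => hf X) (h.trans ?_)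
  · intro X hX
    have := hS X hX
    refine mem_filter.2 ⟨mem_univ _, ?_⟩
    omega
  · refine mul_le_of_le_one_left hε ?_
    have hl : (0 : ℝ) < ℓ := by exact_mod_cast h1
    set t : ℝ := (M : ℝ) / ℓ with ht
    have ht0 : 0 ≤ t := by positivity
    have h2 : (M : ℝ) ≤ 32 * (((M + 31) / 32 : ℕ) : ℝ) := by
      have : M ≤ 32 * ((M + 31) / 32) := by omega
      exact_mod_cast this
    have h3 : 2 * t ≤ τ * (((M + 31) / 32 : ℕ) : ℝ) / ℓ := by
      rw [ht, ← mul_div_assoc]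
      refine div_le_div_of_nonneg_right ?_ hl.le
      have : (0 : ℝ) ≤ (((M + 31) / 32 : ℕ) : ℝ) := Nat.cast_nonneg _
      nlinarith
    have h4 : (t + 1) ^ 2 ≤ Real.exp (2 * t) := by
      have := Real.add_one_le_exp t
      rw [two_mul, Real.exp_add, sq]
      exact mul_le_mul this this (by linarith) (Real.exp_pos _).le
    calc (t + 1) ^ 2 * Real.exp (-(τ * (((M + 31) / 32 : ℕ) : ℝ) / ℓ))
        ≤ Real.exp (2 * t) * Real.exp (-(2 * t)) :=
          mul_le_mul h4 (Real.exp_le_exp.2 (by linarith)) (Real.exp_pos _).le (Real.exp_pos _).le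
      _ = 1 := by rw [← Real.exp_add]; simp

end anch

variable {g : Geo}

/-- Sets that see no flux, not the topology, and at most one source. -/
def Gd (g : Geo) (ℓ : ℕ) (U : Finset g.P) : Prop :=
  g.nd ℓ U ∧ ∀ k k', (g.src k).y ∈ U → (g.src k').y ∈ U → k = k'

theorem flux_sign {M : ℕ} {A : Gauge M} (hA : IsSign A) (f : Tor M) :
    flux A f = 1 ∨ flux A f = -1 := by
  unfold flux
  rcases hA (f, 0) with h1 | h1 <;> rcases hA (f + uv M 0, 1) with h2 | h2 <;>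
    rcases hA (f + uv M 1, 0) with h3 | h3 <;> rcases hA (f, 1) with h4 | h4 <;>
    simp [h1, h2, h3, h4]

theorem bad_cases (hA : IsSign g.A) {ℓ : ℕ} {U : Finset g.P} (h : ¬ Gd g ℓ U) :
    (∃ f, flux g.A f = -1 ∧ ∃ x ∈ U, tdist f x ≤ 2 * stein U + 3 * ℓ) ∨
      g.M ≤ 4 * (2 * stein U + 3 * ℓ) ∨
      ∃ k k', k ≠ k' ∧ (g.src k).y ∈ U ∧ (g.src k').y ∈ U := by
  by_contra hc
  push Not at hc
  obtain ⟨h1, h2, h3⟩ := hc
  refine h ⟨⟨fun x hx f hf => ?_, by omega⟩, fun k k' hk hk' => ?_⟩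
  · rcases flux_sign hA f with h' | h'
    · exact h'
    · exact absurd hf (not_le.2 (h1 f h' x hx))
  · by_contra hne
    exact h3 k k' hne hk hk'

/-- The sum over the bad sets. -/
theorem bad_sum {N Λ r : ℕ} (hg : g.Nice N Λ r) {ℓ : ℕ} (h1 : 1 ≤ ℓ) (hM : 16 * ℓ ≤ g.M) {τ ε : ℝ}
    (hτ : 64 ≤ τ) {f : Finset g.P → ℝ} (hf : ∀ X, 0 ≤ f X) (hA : Anch ℓ τ f ε)
    (S : Finset (Finset g.P)) (hS : ∀ X ∈ S, ¬ Gd g ℓ X) :
    ∑ X ∈ S, f X ≤ (1600 * N + 1) * ε := by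
  classical
  obtain ⟨Z, hZ, hZ1, hZ2⟩ := hg.card
  have hε := G.anch_nonneg hf hA
  set B : g.P → Finset (Finset g.P) := fun c =>
    univ.filter fun X => ∃ x ∈ X, tdist c x ≤ 2 * stein X + 3 * ℓ with hB
  set B' : Finset (Finset g.P) := univ.filter fun X => g.M ≤ 4 * (2 * stein X + 3 * ℓ) with hB'
  have hsub : S ⊆ Z.biUnion B ∪ B' := by
    intro X hX
    rcases bad_cases hg.ok.sign (hS X hX) with ⟨c, hc, hx⟩ | h | ⟨k, -, -, hk, -⟩
    · exact mem_union_left _ (mem_biUnion.2 ⟨c, hZ1 c hc, mem_filter.2 ⟨mem_univ _, hx⟩⟩)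
    · exact mem_union_right _ (mem_filter.2 ⟨mem_univ _, h⟩)
    · refine mem_union_left _ (mem_biUnion.2 ⟨_, hZ2 k, mem_filter.2 ⟨mem_univ _, _, hk, ?_⟩⟩)
      rw [tdist_self]
      omega
  have h2 : ∑ X ∈ Z.biUnion B ∪ B', f X ≤ ∑ X ∈ Z.biUnion B, f X + ∑ X ∈ B', f X := by
    rw [← sum_union_inter]
    exact le_add_of_nonneg_right (sum_nonneg fun X _ => hf X)
  have h3 : ∑ X ∈ Z.biUnion B, f X ≤ ∑ c ∈ Z, ∑ X ∈ B c, f X := by
    clear hsub h2 hZ hZ1 hZ2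
    induction Z using Finset.induction_on with
    | empty => simp
    | insert a s ha ih =>
      rw [biUnion_insert, sum_insert ha]
      have : ∑ X ∈ B a ∪ s.biUnion B, f X ≤ ∑ X ∈ B a, f X + ∑ X ∈ s.biUnion B, f X := by
        rw [← sum_union_inter]
        exact le_add_of_nonneg_right (sum_nonneg fun X _ => hf X)
      linarith
  have h4 : ∑ c ∈ Z, ∑ X ∈ B c, f X ≤ Z.card • (1600 * ε) :=
    sum_le_card_nsmul _ _ _ fun c _ =>
      near_sum h1 (by linarith) hf hA c _ fun X hX => (mem_filter.1 hX).2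
  have h5 := top_sum h1 hM hτ hf hA B' fun X hX => (mem_filter.1 hX).2
  have h6 : (Z.card : ℝ) ≤ N := by exact_mod_cast hZ
  rw [nsmul_eq_mul] at h4
  have h7 := sum_le_sum_of_subset_of_nonneg hsub fun X _ _ => hf X
  nlinarith

section ps

variable (hA : IsSign g.A) {β : ℝ} (hβ : 0 < β) {U : Finset g.P}

theorem ps_nonneg (F : g.E) : 0 ≤ g.ps β U F := nrm_nonneg _

include hA hβ

theorem ps_add (F G : g.E) : g.ps β U (F + G) ≤ g.ps β U F + g.ps β U G := by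
  obtain ⟨𝓛, -, h⟩ := exists_locSys (g := g) hA le_rfl one_pos hβ
  have := 𝓛.p_add U F G
  rwa [h] at this

theorem ps_smul (c : ℝ) (F : g.E) : g.ps β U (c • F) = |c| * g.ps β U F := by
  obtain ⟨𝓛, -, h⟩ := exists_locSys (g := g) hA le_rfl one_pos hβ
  have := 𝓛.p_smul U c F
  rwa [h] at this

theorem ps_mul (F G : g.E) : g.ps β U (F * G) ≤ g.ps β U F * g.ps β U G := by
  obtain ⟨𝓛, -, h⟩ := exists_locSys (g := g) hA le_rfl one_pos hβ
  have := 𝓛.p_mul U F G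
  rwa [h] at this

theorem ps_one : g.ps β U 1 ≤ 1 := by
  obtain ⟨𝓛, -, h⟩ := exists_locSys (g := g) hA le_rfl one_pos hβ
  have := 𝓛.p_one U
  rwa [h] at this

theorem ps_univ {F : g.E} (hF : F ∈ g.sub U) : g.ps β univ F ≤ g.ps β U F := by
  obtain ⟨𝓛, h', h⟩ := exists_locSys (g := g) hA le_rfl one_pos hβ
  have := 𝓛.p_mono (subset_univ U) (F := F) (by rw [h']; exact hF)
  rwa [h] at this

theorem ps_def {F : g.E} (hF : F ∈ g.sub U) (h0 : g.ps β U F = 0) : F = 0 := by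
  obtain ⟨𝓛, h', h⟩ := exists_locSys (g := g) hA le_rfl one_pos hβ
  exact 𝓛.p_def (X := U) (by rw [h']; exact hF) (by rw [h]; exact h0)

theorem ps_zero : g.ps β U 0 = 0 := by
  have := ps_smul hA hβ (U := U) 0 0
  simpa using this

theorem ps_neg (F : g.E) : g.ps β U (-F) = g.ps β U F := by
  have := ps_smul hA hβ (U := U) (-1) F
  simpa using this

theorem ps_sub (F G : g.E) : g.ps β U (F - G) ≤ g.ps β U F + g.ps β U G := by
  rw [sub_eq_add_neg, ← ps_neg hA hβ G]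
  exact ps_add hA hβ _ _

theorem ps_sum {ι : Type} (t : Finset ι) (F : ι → g.E) :
    g.ps β U (∑ i ∈ t, F i) ≤ ∑ i ∈ t, g.ps β U (F i) := by
  classical
  induction t using Finset.induction_on with
  | empty => simp [ps_zero hA hβ]
  | insert a s ha ih =>
    rw [sum_insert ha, sum_insert ha]
    exact (ps_add hA hβ _ _).trans (by linarith)

theorem ps_scalar (c : ℝ) : g.ps β U (c • 1) ≤ |c| := by
  rw [ps_smul hA hβ]
  exact mul_le_of_le_one_right (abs_nonneg _) (ps_one hA hβ)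

theorem ps_aug {F : g.E} (hF : F ∈ g.sub U) : |aug (Ev.val F)| ≤ g.ps β U F :=
  abs_aug_le_pn hA le_rfl one_pos hβ hF

theorem ps_exp {F : g.E} (hF : F ∈ g.sub univ) :
    g.ps β univ (NormedSpace.exp F - 1) ≤ Real.exp (g.ps β univ F) - 1 :=
  ((sub_exp_log (g.sub univ) (g.ps β univ) (fun _ => ps_nonneg _)
    (fun F _ G _ => ps_add hA hβ F G) (fun c F _ => ps_smul hA hβ c F)
    (fun F _ G _ => ps_mul hA hβ F G) (ps_one hA hβ) (fun _ hF h => ps_def hA hβ hF h)).1 F hF).2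

end ps

end Vale.Agent.P144Z.Mn
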