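import Vale.Agent.P144Z.M.Base

/-!
# The main estimate: subtraction of the vacuum and of the one-source terms
-/

namespace Vale.Agent.P144Z.Mn

open Finset Matrix Geo

/-- The scalar part. -/
noncomputable def ag (g : Geo) : g.E →ₗ[ℝ] ℝ :=
  (aug (S := g.S)).toLinearMap ∘ₗ (Ev.val (S := g.S)).toLinearMap

/-- The coefficient of one source variable. -/
noncomputable def cf (g : Geo) (k : g.K) : g.E →ₗ[ℝ] ℝ :=
  (aug (S := g.S)).toLinearMap ∘ₗ g.db k ∘ₗ (Ev.val (S := g.S)).toLinearMap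

theorem ag_apply (g : Geo) (F : g.E) : ag g F = aug (Ev.val F) := rfl

theorem cf_apply (g : Geo) (k : g.K) (F : g.E) : cf g k F = aug (g.db k (Ev.val F)) := rfl

/-- The same torus with the gauge field `A'` and without sources. -/
abbrev bare (g : Geo) (A' : Gauge g.M) : Geo :=
  { M := g.M, A := A', K := Empty, src := Empty.elim, J := g.J }

/-- The same torus with the gauge field `A'` and only the source `k`. -/
abbrev one (g : Geo) (A' : Gauge g.M) (k : g.K) : Geo :=
  { M := g.M, A := A', K := Unit, src := fun _ => g.src k, J := g.J }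

/-- The subtraction. -/
noncomputable def br (g : Geo) (A' : Gauge g.M) (F : g.E) (F₀ : (bare g A').E)
    (F₁ : ∀ k, (one g A' k).E) : g.E :=
  F - ag _ F₀ • (1 : g.E) - ∑ k, cf (one g A' k) () (F₁ k) • g.bv k

variable {g : Geo}

theorem ag_one : ag g 1 = 1 := by simp [ag_apply]

theorem db_even (k : g.K) (F : g.E) : g.db k (Ev.val F) ∈ evenS g.S := by
  rw [A1.mem_even_iff]
  have h := A1.mem_even_iff.1 (Ev.val_mem F)
  simp only [Geo.db, LinearMap.comp_apply]
  rw [A1.inv_del, A1.inv_del, h, map_neg, neg_neg]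

theorem ag_toEv_db (k : g.K) (F : g.E) : ag g (toEv (g.db k (Ev.val F))) = cf g k F := by
  rw [ag_apply, val_toEv (db_even k F), cf_apply]

theorem cf_one (k : g.K) : cf g k 1 = 0 := by
  simp [cf_apply, Geo.db, A1.del_one]

theorem cf_bv (k : g.K) : cf g k (g.bv k) = 1 := by
  have h := beta_pp (S := g.S) (Pi.single (Sum.inr (k, 0)) 1) (Pi.single (Sum.inr (k, 1)) 1)
    (Pi.single (Sum.inr (k, 0)) 1) (Pi.single (Sum.inr (k, 1)) 1)
  rw [cf_apply, Geo.bv, val_pp]
  simp only [Geo.db, LinearMap.comp_apply]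
  rw [beta] at h
  rw [h]
  simp

theorem ag_bv (k : g.K) : ag g (g.bv k) = 0 := by
  have h := noF_noB (g := g) (g.bv k)
  rw [noB_bv, map_zero] at h
  have h2 := congrArg (ag g) h
  rw [map_zero, map_smul, ag_one, smul_eq_mul, mul_one] at h2
  exact h2.symm

theorem src_zero {U : Finset g.P} {F : g.E} (hF : F ∈ g.sub U) (h0 : g.noF F = F)
    (hU : ∀ k, (g.src k).y ∉ U) : F = ag g F • (1 : g.E) := by
  rw [ag_apply, ← noF_noB, noB_of_no_src hF hU, h0]

theorem src_one {U : Finset g.P} {F : g.E} (hF : F ∈ g.sub U) (h0 : g.noF F = F) (k : g.K)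
    (hU : ∀ k', (g.src k').y ∈ U → k' = k) : F = ag g F • (1 : g.E) + cf g k F • g.bv k := by
  obtain ⟨h1, -, h3⟩ := eq_of_one_src hF k hU
  have h4 := congrArg g.noF h1
  rw [h0, map_add, noF_mul, noF_noB, noF_bv, ← h3, noF_noB, ← ag_apply, ← ag_apply,
    ag_toEv_db, mul_smul_comm, mul_one] at h4
  exact h4

theorem cf_not_mem {U : Finset g.P} {F : g.E} (hF : F ∈ g.sub U) {k : g.K}
    (hk : (g.src k).y ∉ U) : cf g k F = 0 := by
  rw [cf_apply, db_of_not_mem hF hk, map_zero]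

theorem ps_cf (hA : IsSign g.A) {β : ℝ} (hβ : 0 < β) {U : Finset g.P} {F : g.E} (hF : F ∈ g.sub U)
    (k : g.K) : β * |cf g k F| ≤ g.ps β U F := by
  refine le_trans (mul_le_mul_of_nonneg_left ?_ hβ.le) (pn_db_le hA le_rfl one_pos hβ hF k)
  rw [← ag_toEv_db]
  exact abs_aug_le (adm_cons hA le_rfl one_pos hβ U) _

theorem mem_univ_sub {U : Finset g.P} {F : g.E} (hF : F ∈ g.sub U) : F ∈ g.sub univ :=
  sub_mono (subset_univ U) hF

variable {A' : Gauge g.M}

theorem br_mem {F : g.E} (hF : F ∈ g.sub univ) (F₀ : (bare g A').E) (F₁ : ∀ k, (one g A' k).E) :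
    br g A' F F₀ F₁ ∈ g.sub univ :=
  sub_mem (sub_mem hF (Subalgebra.smul_mem _ (one_mem _) _))
    (sum_mem fun _ _ => Subalgebra.smul_mem _ (bv_mem (mem_univ _)) _)

theorem br_zero : br g A' 0 0 (fun _ => 0) = 0 := by simp [br]

theorem br_add (F G : g.E) (F₀ G₀ : (bare g A').E) (F₁ G₁ : ∀ k, (one g A' k).E) :
    br g A' (F + G) (F₀ + G₀) (fun k => F₁ k + G₁ k) = br g A' F F₀ F₁ + br g A' G G₀ G₁ := by
  simp only [br, map_add, add_smul, sum_add_distrib]
  abel

theorem br_sub (F G : g.E) (F₀ G₀ : (bare g A').E) (F₁ G₁ : ∀ k, (one g A' k).E) :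
    br g A' (F - G) (F₀ - G₀) (fun k => F₁ k - G₁ k) = br g A' F F₀ F₁ - br g A' G G₀ G₁ := by
  simp only [br, map_sub, sub_smul, sum_sub_distrib]
  abel

theorem br_sum {ι : Type} (t : Finset ι) (F : ι → g.E) (F₀ : ι → (bare g A').E)
    (F₁ : ι → ∀ k, (one g A' k).E) :
    br g A' (∑ i ∈ t, F i) (∑ i ∈ t, F₀ i) (fun k => ∑ i ∈ t, F₁ i k) =
      ∑ i ∈ t, br g A' (F i) (F₀ i) (F₁ i) := by
  classical
  induction t using Finset.induction_on with
  | empty => simpa using br_zero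
  | insert a s ha ih =>
    simp only [sum_insert ha]
    rw [br_add, ih]

theorem scB_br (a : ℝ) (F : g.E) (F₀ : (bare g A').E) {F₁ : ∀ k, (one g A' k).E}
    (h : ∀ k, F₁ k ∈ (one g A' k).sub univ) :
    g.scB a (br g A' F F₀ F₁) =
      br g A' (g.scB a F) ((bare g A').scB a F₀) (fun k => (one g A' k).scB a (F₁ k)) := by
  simp only [br, map_sub, map_smul, map_sum, scB_one, scB_bv, ag_apply, aug_scB, cf_apply,
    aug_db_scB a _ (h _), smul_smul]
  congr 2
  ext k
  rw [mul_comm]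

theorem ps_br (hA : IsSign g.A) (hA' : IsSign A') {β : ℝ} (hβ : 0 < β) {U : Finset g.P} {F : g.E}
    {F₀ : (bare g A').E} {F₁ : ∀ k, (one g A' k).E} (hF : F ∈ g.sub U)
    (h₀ : F₀ ∈ (bare g A').sub U) (h₁ : ∀ k, F₁ k ∈ (one g A' k).sub U) :
    g.ps β univ (br g A' F F₀ F₁) ≤
      g.ps β U F + (bare g A').ps β U F₀ + ∑ k, (one g A' k).ps β U (F₁ k) := by
  refine (ps_sub hA hβ _ _).trans (add_le_add ((ps_sub hA hβ _ _).trans (add_le_add
    (ps_univ hA hβ hF) ((ps_scalar hA hβ _).trans (ps_aug (g := bare g A') hA' hβ h₀)))) ?_)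
  refine (ps_sum hA hβ _ _).trans (sum_le_sum fun k _ => ?_)
  rw [ps_smul hA hβ]
  refine le_trans ?_ (ps_cf (g := one g A' k) hA' hβ (h₁ k) ())
  rw [mul_comm]
  exact mul_le_mul_of_nonneg_right (pn_bv k hA le_rfl one_pos hβ (mem_univ _)) (abs_nonneg _)

theorem lg_one {S : Type} [Fintype S] [DecidableEq S] : lg (1 : Ev S) = 0 := by
  rw [← NormedSpace.exp_zero, lg_exp]

theorem cs_empty (hg : g.Ok) (L : ℕ) (q : Par) (j : ℕ) : g.cs L q j ∅ = 0 := by
  cases j with
  | zero =>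
    have h := (wf_init hg q).K0
    have hH : g.Hin q ∅ = 0 := by
      funext n
      have h1 : ∀ y : g.P, (potSets q.R).filter (fun B => g.put y (hull B) = ∅) = ∅ := by
        intro y
        refine filter_eq_empty_iff.2 fun B hB h => ?_
        have h0 : ((0, 0) : ℤ × ℤ) ∈ B := (mem_filter.1 hB).2
        have h2 : ((0, 0) : ℤ × ℤ) ∈ hull B :=
          mem_biUnion.2 ⟨((0, 0), (0, 0)), mem_product.2 ⟨h0, h0⟩, by simp⟩
        exact (image_eq_empty.1 h ▸ h2 : ((0, 0) : ℤ × ℤ) ∈ (∅ : Finset (ℤ × ℤ))) |> notMem_empty _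
      have h2 : univ.filter (fun k => g.put (g.src k).y (g.src k).Y = ∅) = ∅ := by
        refine filter_eq_empty_iff.2 fun k _ h => ?_
        exact (image_eq_empty.1 h ▸ (hg.src k).zero :
          ((0, 0) : ℤ × ℤ) ∈ (∅ : Finset (ℤ × ℤ))) |> notMem_empty _
      simp only [Geo.Hin, h1, h2, sum_empty, sum_const_zero, zero_smul, add_zero, Pi.zero_apply]
    have hE : g.E0 (q.x * q.Z) 1 = 1 := by
      have := Finset.prod_univ_sum (fun _ : Tor g.M × Fin 2 => (univ : Finset Bool))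
        (fun e b => if b = true then (q.x * q.Z) • g.edge e.1 e.2
          else 1 - (q.x * q.Z) • g.edge e.1 e.2)
      simp only [Fintype.univ_bool, mem_singleton, Bool.true_eq_false,
        not_false_eq_true, sum_insert, if_true, sum_singleton, Bool.false_eq_true, if_false,
        add_sub_cancel, prod_const_one] at this
      change ∑ n : g.Cfg, (1 : g.E) * _ = 1
      simp only [one_mul]
      exact this.symm
    simp [Geo.cs, Geo.W0, Cl, hH, hE, lg_one]
  | succ j =>
    have hE : ∀ C : Matrix g.S g.S ℝ, evG C (1 : g.E) = 1 := fun C =>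
      Ev.val_injective (by rw [val_evG, map_one, gauss_one])
    simp [Geo.cs, Geo.cst, Geo.intg, Cl, (wf_flow hg L q 0 j).H_empty, hE, lg_one]

theorem shf_self {M : ℕ} [NeZero M] (c x : Tor M) : shf c c x = x := by
  rw [shf, prj_lft, add_sub_cancel]

theorem image_shf {M : ℕ} [NeZero M] (c : Tor M) (U : Finset (Tor M)) : U.image (shf c c) = U := by
  rw [show shf c c = id from funext (shf_self c), image_id]

theorem ok_bare (hA' : IsSign A') : (bare g A').Ok := ⟨hA', fun k => k.elim⟩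

theorem ok_one (hg : g.Ok) (hA' : IsSign A') (k : g.K) : (one g A' k).Ok := ⟨hA', fun _ => hg.src k⟩

theorem not_flux (hA'f : ∀ f, flux A' f = 1) (f : Tor g.M) : flux A' f ≠ -1 := by
  rw [hA'f]; norm_num

theorem nice_bare {N Λ r : ℕ} (hA' : IsSign A') (hA'f : ∀ f, flux A' f = 1) (ha : ∃ i, Anti A' i) :
    (bare g A').Nice N Λ r where
  ok := ok_bare hA'
  on k := k.elim
  sep := ⟨fun f _ h => absurd h (not_flux hA'f f), fun _ k => k.elim, fun k => k.elim⟩
  cl := ⟨A', ⟨hA', hA', hA'f, fun _ _ => rfl, fun f h => absurd h (not_flux hA'f f),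
    fun f _ h => absurd h (not_flux hA'f f)⟩, ha⟩
  src k := k.elim
  card := ⟨∅, by simp, fun f h => absurd h (not_flux hA'f f), fun k => k.elim⟩

theorem nice_one {N Λ r : ℕ} (hg : g.Nice N Λ r) (hA' : IsSign A') (hA'f : ∀ f, flux A' f = 1)
    (ha : ∃ i, Anti A' i) (k : g.K) : (one g A' k).Nice N Λ r where
  ok := ok_one hg.ok hA' k
  on _ := hg.on k
  sep := ⟨fun f _ h => absurd h (not_flux hA'f f), fun f _ h => absurd h (not_flux hA'f f),
    fun _ _ h => absurd rfl h⟩
  cl := ⟨A', ⟨hA', hA', hA'f, fun _ _ => rfl, fun f h => absurd h (not_flux hA'f f),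
    fun f _ h => absurd h (not_flux hA'f f)⟩, ha⟩
  src _ := hg.src k
  card := by
    obtain ⟨Z, h1, -, h3⟩ := hg.card
    exact ⟨Z, h1, fun f h => absurd h (not_flux hA'f f), fun _ => h3 k⟩

/-- The subtracted constants vanish on the good sets. -/
theorem br_good (hg : g.Ok) (hon : ∀ k, (g.src k).on = true) (hA' : IsSign A')
    (hA'f : ∀ f, flux A' f = 1) {L : ℕ} (hL : 8 ≤ L) {q : Par} (hq : q.Ok)
    (hR : 16 * (q.R + 1) ≤ g.M) (j : ℕ) {U : Finset g.P} (hU : Gd g (sc L j) U) :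
    br g A' (g.cs L q j U) ((bare g A').cs L q j U) (fun k => (one g A' k).cs L q j U) = 0 := by
  rcases U.eq_empty_or_nonempty with rfl | ⟨x, hx⟩
  · rw [cs_empty hg, cs_empty (ok_bare hA')]
    simp only [fun k => cs_empty (ok_one hg hA' k) L q j]
    exact br_zero
  obtain ⟨⟨hfl, hM⟩, hs⟩ := hU
  have hT : tdist x x + 2 * stein U + 3 * sc L j ≤ 2 * stein U + 3 * sc L j := by
    rw [tdist_self]; omega
  have h0 : ag _ ((bare g A').cs L q j U) = ag g (g.cs L q j U) := by
    have := ag_cs (g := g) (g' := bare g A') (c := x) (c' := x) hL hg (ok_bare hA') hq hR hR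
      ⟨hM, hM, fun f hf => by rw [hA'f, hfl x hx f hf]⟩ j hx hT
    rwa [image_shf] at this
  have h1 : ∀ k, (g.src k).y ∈ U →
      cf (one g A' k) () ((one g A' k).cs L q j U) = cf g k (g.cs L q j U) := by
    intro k hk
    have := ag_cs_src (g := g) (g' := one g A' k) (c := x) (c' := x) hL hg (ok_one hg hA' k) hq hR
      hR ⟨hM, hM, fun f hf => by rw [hA'f, hfl x hx f hf]⟩ j (k := k) (k' := ())
      ⟨(shf_self _ _).symm, rfl, rfl, rfl, rfl, fun _ _ => Iff.rfl⟩ (fun v hv => by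
        rw [((hg.src k).en (hon k)).1] at hv
        have : zd v 0 ≤ 1 := by
          simp only [mem_insert, mem_singleton] at hv
          rcases hv with rfl | rfl
          · simp [zd]
          · unfold uz; split_ifs <;> simp [zd]
        simp only [min_self]
        omega) hx hk hT
    rwa [image_shf] at this
  have h2 : ∀ k, (g.src k).y ∉ U → cf (one g A' k) () ((one g A' k).cs L q j U) = 0 :=
    fun k hk => cf_not_mem (g := one g A' k) (cs_mem (ok_one hg hA' k) L q j U).1 hk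
  obtain ⟨hm, hn⟩ := cs_mem hg L q j U
  rw [br, h0]
  by_cases hk : ∃ k, (g.src k).y ∈ U
  · obtain ⟨k, hk⟩ := hk
    rw [sum_eq_single k (fun k' _ hne => by rw [h2 k' fun h => hne (hs _ _ h hk), zero_smul])
      (fun h => absurd (mem_univ _) h), h1 k hk, sub_sub, sub_eq_zero]
    exact src_one hm hn k fun k' h => hs _ _ h hk
  · push Not at hk
    rw [sum_eq_zero fun k _ => by rw [h2 k (hk k), zero_smul], sub_zero, sub_eq_zero]
    exact src_zero hm hn hk

end Vale.Agent.P144Z.Mn
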