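import Vale.Agent.P144Z.M.Alg

/-!
# The main estimate: bounds on the exponent
-/

namespace Vale.Agent.P144Z.Mn

open Finset Matrix Geo

theorem geo_tail (J N : ℕ) : ∑ j ∈ Ico (J + 1) N, (1 : ℝ) / 2 ^ j ≤ 1 / 2 ^ J := by
  rcases le_or_gt N (J + 1) with h | h
  · rw [Ico_eq_empty (by omega), sum_empty]; positivity
  · have key : ∀ n, ∑ j ∈ Ico (J + 1) (J + 1 + n), (1 : ℝ) / 2 ^ j = 1 / 2 ^ J - 1 / 2 ^ (J + n) := by
      intro n
      induction n with
      | zero => simp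
      | succ n ih =>
        rw [← add_assoc, sum_Ico_succ_top (by omega), ih, ← add_assoc,
          show J + 1 + n = J + n + 1 by omega, pow_succ]
        field_simp
        ring
    obtain ⟨n, rfl⟩ := Nat.exists_eq_add_of_le h.le
    rw [key]
    have : (0 : ℝ) ≤ 1 / 2 ^ (J + n) := by positivity
    linarith

theorem geo_tail' (J N : ℕ) : ∑ j ∈ Ico (J + 1) N, (1 : ℝ) / 2 ^ (j - J) ≤ 1 := by
  have h := geo_tail J N
  have h2 : ∑ j ∈ Ico (J + 1) N, (1 : ℝ) / 2 ^ (j - J) = 2 ^ J * ∑ j ∈ Ico (J + 1) N, 1 / 2 ^ j := by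
    rw [mul_sum]
    refine sum_congr rfl fun j hj => ?_
    obtain ⟨n, rfl⟩ := Nat.exists_eq_add_of_le (show J ≤ j by have := (mem_Ico.1 hj).1; omega)
    rw [Nat.add_sub_cancel_left, pow_add]
    field_simp
  rw [h2]
  calc (2 : ℝ) ^ J * _ ≤ 2 ^ J * (1 / 2 ^ J) := mul_le_mul_of_nonneg_left h (by positivity)
    _ = 1 := by field_simp

theorem geo_head (J : ℕ) : ∑ j ∈ range (J + 1), (1 : ℝ) / 2 ^ j * (1 / 4 ^ (J - j)) ≤ 2 / 2 ^ J := by
  induction J with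
  | zero => norm_num
  | succ J ih =>
    rw [sum_range_succ, Nat.sub_self]
    have h : ∑ j ∈ range (J + 1), (1 : ℝ) / 2 ^ j * (1 / 4 ^ (J + 1 - j)) =
        1 / 4 * ∑ j ∈ range (J + 1), (1 : ℝ) / 2 ^ j * (1 / 4 ^ (J - j)) := by
      rw [mul_sum]
      refine sum_congr rfl fun j hj => ?_
      rw [show J + 1 - j = J - j + 1 by have := mem_range.1 hj; omega, pow_succ]
      field_simp
    rw [h, pow_succ]
    have h2 : (0 : ℝ) < 2 ^ J := by positivity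
    have h3 : (2 : ℝ) / (2 ^ J * 2) = 1 / 4 * (2 / 2 ^ J) + 1 / (2 ^ J * 2) * (1 / 4 ^ 0) := by
      field_simp
      ring
    linarith

theorem geo_all (J : ℕ) : ∑ j ∈ range J, (1 : ℝ) / 2 ^ j ≤ 2 := by
  have := sum_geometric_two_le J
  simpa [one_div, inv_pow] using this

theorem eight_le_sc {L : ℕ} (hL : 1 ≤ L) (j : ℕ) : 8 ≤ sc L j := by
  have := Nat.one_le_pow j L hL
  unfold sc
  omega

theorem sc_mono {L : ℕ} (hL : 1 ≤ L) {i j : ℕ} (h : i ≤ j) : sc L i ≤ sc L j :=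
  Nat.mul_le_mul_left _ (Nat.pow_le_pow_right hL h)

theorem sc_eq {L i j : ℕ} (h : i ≤ j) : sc L j = L ^ (j - i) * sc L i := by
  obtain ⟨n, rfl⟩ := Nat.exists_eq_add_of_le h
  rw [Nat.add_sub_cancel_left, sc, sc, pow_add]
  ring

/-- The gain of the large sets beats the growth of the weight. -/
theorem gain {L : ℕ} (hL : 4 ≤ L) {j J r : ℕ} (hj : j ≤ J) (hr : 8 * sc L J ≤ r) (m : ℕ) :
    (4 * (L : ℝ) ^ (J - j)) ^ m * Real.exp (-(L * (r / 20 + 1 : ℕ) / sc L j)) ≤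
      4 ^ m * (m + 1).factorial * (1 / 4 ^ (J - j)) := by
  set x : ℝ := (L : ℝ) ^ (J - j) with hx
  have hL' : (4 : ℝ) ≤ L := by exact_mod_cast hL
  have hx4 : (4 : ℝ) ^ (J - j) ≤ x := pow_le_pow_left₀ (by norm_num) hL' _
  have hx0 : 0 < x := by positivity
  have hl : (0 : ℝ) < sc L j := by
    have := eight_le_sc (L := L) (by omega) j
    exact_mod_cast (by omega : 0 < sc L j)
  have h1 : x ≤ L * (r / 20 + 1 : ℕ) / sc L j := by
    rw [le_div_iff₀ hl]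
    have h2 : L ^ (J - j) * sc L j ≤ L * (r / 20 + 1) := by
      rw [← sc_eq hj]
      calc sc L J ≤ 4 * (r / 20 + 1) := by omega
        _ ≤ L * (r / 20 + 1) := Nat.mul_le_mul_right _ hL
    rw [hx]
    exact_mod_cast h2
  have h3 := Real.pow_div_factorial_le_exp x hx0.le (m + 1)
  have hf : (0 : ℝ) < (m + 1).factorial := by exact_mod_cast (m + 1).factorial_pos
  rw [div_le_iff₀ hf] at h3
  have h4 : Real.exp (-(L * (r / 20 + 1 : ℕ) / sc L j)) ≤ Real.exp (-x) :=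
    Real.exp_le_exp.2 (by linarith)
  have h5 : x ^ m * Real.exp (-x) ≤ (m + 1).factorial * (1 / x) := by
    rw [Real.exp_neg, ← div_eq_mul_inv, mul_one_div, div_le_div_iff₀ (Real.exp_pos x) hx0,
      ← pow_succ, mul_comm]
    exact h3
  have h6 : 1 / x ≤ 1 / 4 ^ (J - j) := one_div_le_one_div_of_le (by positivity) hx4
  calc (4 * x) ^ m * _ ≤ (4 * x) ^ m * Real.exp (-x) :=
        mul_le_mul_of_nonneg_left h4 (by positivity)
    _ = 4 ^ m * (x ^ m * Real.exp (-x)) := by rw [mul_pow, mul_assoc]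
    _ ≤ 4 ^ m * ((m + 1).factorial * (1 / 4 ^ (J - j))) :=
        mul_le_mul_of_nonneg_left (h5.trans (mul_le_mul_of_nonneg_left h6 hf.le)) (by positivity)
    _ = _ := by ring

variable {g : Geo} {A' : Gauge g.M}

theorem exc_sub (hg : g.Ok) (hon : ∀ k, (g.src k).on = true) {U : Finset g.P} (h : g.Exc U) :
    ∃ k, (g.src k).y ∈ U ∧ U ⊆ star (g.src k).y := by
  obtain ⟨k, rfl | rfl⟩ := h
  · exact ⟨k, G.mem_star_self _, subset_rfl⟩
  · refine ⟨k, mem_image.2 ⟨_, (hg.src k).zero, ?_⟩, fun x hx => ?_⟩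
    · rw [show prj g.M (0, 0) = 0 from G.prj_zero, add_zero]
    · obtain ⟨v, hv, rfl⟩ := mem_image.1 hx
      rw [((hg.src k).en (hon k)).1] at hv
      simp only [mem_insert, mem_singleton] at hv
      rcases hv with rfl | rfl
      · rw [show prj g.M (0, 0) = 0 from G.prj_zero, add_zero]
        exact G.mem_star_self _
      · have : ∀ i : Fin 2, prj g.M (uz i) = uv g.M i := by
          intro i
          unfold uz uv
          split_ifs <;> simp [prj]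
        rw [this]
        generalize (g.src k).dir = i
        fin_cases i <;> simp [star]

theorem exc_good (hg : g.Ok) (hon : ∀ k, (g.src k).on = true) {r ℓ : ℕ} (hs : g.Sep r)
    (h8 : 8 ≤ ℓ) (hr : 8 * ℓ ≤ r) (hM : 32 * ℓ ≤ g.M) {U : Finset g.P} (h : g.Exc U) : Gd g ℓ U := by
  obtain ⟨k, -, hU⟩ := exc_sub hg hon h
  have h4 : stein U ≤ 4 := (stein_mono hU).trans (stein_star _)
  refine ⟨⟨fun x hx f hf => ?_, by omega⟩, fun k₁ k₂ h1 h2 => ?_⟩
  · rcases flux_sign hg.sign f with h' | h'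
    · exact h'
    · have h5 := hs.fs f k h'
      have h6 := G.tdist_star (hU hx)
      have h7 := tdist_triangle f x (g.src k).y
      rw [tdist_comm] at h6
      omega
  · by_contra hne
    have h5 := hs.ss _ _ hne
    have h6 := tdist_le_stein h1 h2
    omega

theorem ps_wt (hA : IsSign g.A) {β β' Γ : ℝ} (hβ : 0 < β) (h : β ≤ β') (hΓ : 4 * β' / β ≤ Γ) {m : ℕ}
    (hm : Fintype.card g.K ≤ m) {U : Finset g.P} {F : g.E} (hF : F ∈ g.sub U) :
    g.ps β' U F ≤ Γ ^ m * g.ps β U F := by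
  classical
  have h1 : 1 ≤ 4 * β' / β := by rw [le_div_iff₀ hβ]; linarith
  refine (pn_weight hA le_rfl one_pos hβ hF h).trans (mul_le_mul_of_nonneg_right ?_ (ps_nonneg _))
  refine (pow_le_pow_right₀ h1 ((card_le_univ _).trans hm)).trans ?_
  exact pow_le_pow_left₀ (by linarith) hΓ _

/-- The sum of the scalar constants that see the point `f`. -/
noncomputable def ss (g : Geo) (A' : Gauge g.M) (L : ℕ) (q : Par) (J : ℕ) (f : g.P) (T : ℕ) : ℝ :=
  ∑ j ∈ range (J + 1), (g.sig L q j f T - (bare g A').sig L q j f T)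

/-- The data of the estimate. -/
structure Dat (g : Geo) (A' : Gauge g.M) (L : ℕ) (q : Par) (N₀ Λ r N : ℕ) (Z w a b : ℝ) : Prop where
  nice : g.Nice N₀ Λ r
  sign : IsSign A'
  flat : ∀ f, flux A' f = 1
  hL : 64 ≤ L
  ok : q.Ok
  hR : 16 * (q.R + 1) ≤ g.M
  hr : 8 * sc L g.J ≤ r
  hM : 8 * r ≤ g.M
  hN : 16 * sc L N ≤ g.M
  hJ : g.J ≤ N
  hw : 0 < w
  B : g.FlowB L q N Z w a b
  B0 : (bare g A').FlowB L q N Z w a b
  B1 : ∀ k, (one g A' k).FlowB L q N Z w a b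

theorem par0_ok : par0.Ok := by
  have h1 : (7 / 5 : ℝ) ≤ √2 := Real.le_sqrt_of_sq_le (by norm_num)
  have h2 : √2 ≤ (71 / 50 : ℝ) := Real.sqrt_le_iff.2 ⟨by norm_num, by norm_num⟩
  refine ⟨⟨rfl, fun _ h => absurd rfl h, ⟨0, fun _ h => absurd rfl h⟩, fun _ _ => rfl,
    fun _ => rfl, fun _ => rfl⟩, fun _ h => absurd rfl h, ?_, ?_, ?_, ?_⟩
  all_goals
    simp only [par0, tc]
    linarith

namespace Dat

variable {L : ℕ} {q : Par} {N₀ Λ r N : ℕ} {Z w a b : ℝ} (D : Dat g A' L q N₀ Λ r N Z w a b)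
include D

theorem wpos (j : ℕ) : 0 < w * sc L j := by
  have := eight_le_sc (L := L) (by have := D.hL; omega) j
  exact mul_pos D.hw (by exact_mod_cast (by omega : 0 < sc L j))

theorem good (j : ℕ) {U : Finset g.P} (hU : Gd g (sc L j) U) : Br g A' L q j U = 0 :=
  br_good D.nice.ok D.nice.on D.sign D.flat (by have := D.hL; omega) D.ok D.hR j hU

theorem good0 (j : ℕ) {U : Finset g.P} (hU : Gd g (sc L j) U) : Br g A' L par0 j U = 0 :=
  br_good D.nice.ok D.nice.on D.sign D.flat (by have := D.hL; omega) par0_ok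
    (by have := D.hR; change 16 * (0 + 1) ≤ g.M; omega) j hU

theorem not_exc {j : ℕ} (hj : j ≤ g.J) {U : Finset g.P} (hU : ¬ Gd g (sc L j) U) :
    ¬ g.Exc U ∧ ¬ (bare g A').Exc U ∧ ∀ k, ¬ (one g A' k).Exc U := by
  have hL := D.hL
  have h1 := sc_mono (L := L) (by omega) hj
  have h2 := D.hr
  have h3 := D.hM
  have h : ¬ g.Exc U := fun h => hU (exc_good D.nice.ok D.nice.on D.nice.sep
    (eight_le_sc (by omega) j) (by omega) (by omega) h)
  exact ⟨h, fun ⟨k, _⟩ => k.elim, fun k ⟨_, h'⟩ => h ⟨k, h'⟩⟩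

theorem early0 {j : ℕ} (hj : j ≤ g.J) (U : Finset g.P) : Br g A' L par0 j U = 0 := by
  by_cases hU : Gd g (sc L j) U
  · exact D.good0 j hU
  · obtain ⟨h1, h2, h3⟩ := D.not_exc hj hU
    rw [Br, D.B.early0 j hj U h1, D.B0.early0 j hj U h2]
    simp only [fun k => (D.B1 k).early0 j hj U (h3 k)]
    exact br_zero

/-- A sum of subtracted terms that vanish on the good sets. -/
theorem sum_bad {j : ℕ} (hj : j ≤ N) {β ε : ℝ} (hβ : 0 < β) (S : Finset (Finset g.P))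
    (hS : ∀ U ∈ S, ¬ Gd g (sc L j) U) (F : Finset g.P → g.E) (F₀ : Finset g.P → (bare g A').E)
    (F₁ : Finset g.P → ∀ k, (one g A' k).E) (hF : ∀ U, F U ∈ g.sub U)
    (h₀ : ∀ U, F₀ U ∈ (bare g A').sub U) (h₁ : ∀ U k, F₁ U k ∈ (one g A' k).sub U)
    (f f₀ : Finset g.P → ℝ) (f₁ : g.K → Finset g.P → ℝ) (hf : ∀ U, 0 ≤ f U) (hf₀ : ∀ U, 0 ≤ f₀ U)
    (hf₁ : ∀ k U, 0 ≤ f₁ k U) (e : ∀ U ∈ S, g.ps β U (F U) ≤ f U)
    (e₀ : ∀ U ∈ S, (bare g A').ps β U (F₀ U) ≤ f₀ U)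
    (e₁ : ∀ k, ∀ U ∈ S, (one g A' k).ps β U (F₁ U k) ≤ f₁ k U) {τ : ℝ} (hτ : 64 ≤ τ)
    (A : Anch (sc L j) τ f ε) (A₀ : Anch (sc L j) τ f₀ ε) (A₁ : ∀ k, Anch (sc L j) τ (f₁ k) ε) :
    g.ps β univ (∑ U ∈ S, br g A' (F U) (F₀ U) (F₁ U)) ≤
      (Fintype.card g.K + 2) * ((1600 * N₀ + 1) * ε) := by
  have hL := D.hL
  have h1 : 1 ≤ sc L j := le_trans (by norm_num) (eight_le_sc (by omega) j)
  have hM : 16 * sc L j ≤ g.M := by
    have := sc_mono (L := L) (by omega) hj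
    have := D.hN
    omega
  refine (ps_sum D.nice.ok.sign hβ _ _).trans ?_
  refine (sum_le_sum fun U hU => (ps_br D.nice.ok.sign D.sign hβ (hF U) (h₀ U) (h₁ U)).trans
    (add_le_add (add_le_add (e U hU) (e₀ U hU)) (sum_le_sum fun k _ => e₁ k U hU))).trans ?_
  rw [sum_add_distrib, sum_add_distrib, sum_comm]
  have b1 := bad_sum D.nice h1 hM hτ hf A S hS
  have b2 := bad_sum D.nice h1 hM hτ hf₀ A₀ S hS
  have b3 := sum_le_card_nsmul univ (fun k => ∑ U ∈ S, f₁ k U) _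
    fun k _ => bad_sum D.nice h1 hM hτ (hf₁ k) (A₁ k) S hS
  rw [nsmul_eq_mul, card_univ] at b3
  linarith

end Dat

end Vale.Agent.P144Z.Mn
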