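import Vale.Agent.P144Z.M.Est

/-!
# The main estimate: the exponent is the scaled free exponent up to a constant
-/

namespace Vale.Agent.P144Z.Mn

open Finset Matrix Geo

variable {g : Geo} {A' : Gauge g.M}

theorem map_res_mem (T : Set g.S) (a : ℝ) {U : Finset g.P} {F : g.E} (hF : F ∈ g.sub U) :
    evMap (LinearMap.id + a • res T) F ∈ g.sub U := by
  classical
  have hd : ∀ s : g.S, ∃ c : ℝ, (LinearMap.id + a • res T : (g.S → ℝ) →ₗ[ℝ] (g.S → ℝ))
      (Pi.single s 1) = c • (Pi.single s 1 : g.S → ℝ) := by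
    intro s
    refine ⟨1 + if s ∈ T then a else 0, ?_⟩
    ext t
    by_cases h : t = s
    · subst h
      by_cases h' : t ∈ T <;> simp [res, h']
    · simp [res, h]
  refine ⟨?_, ?_⟩
  · change Ev.val (evMap _ F) ∈ loc _
    rw [val_evMap]
    refine map_loc hF.1 fun s hs s' hs' => ?_
    obtain ⟨c, hc⟩ := hd s
    have : s' ≠ s := fun h => hs' (h ▸ hs)
    rw [hc]
    simp [this]
  · change ExteriorAlgebra.map g.flip (Ev.val (evMap _ F)) = Ev.val (evMap _ F)
    have h2 : ExteriorAlgebra.map g.flip (Ev.val F) = Ev.val F := hF.2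
    rw [val_evMap]
    conv_rhs => rw [← h2]
    have mm : ∀ (f f' : (g.S → ℝ) →ₗ[ℝ] (g.S → ℝ)) (G : Gr g.S),
        ExteriorAlgebra.map f (ExteriorAlgebra.map f' G) = ExteriorAlgebra.map (f ∘ₗ f') G :=
      fun f f' G => by rw [← ExteriorAlgebra.map_comp_map, AlgHom.comp_apply]
    rw [mm, mm]
    congr 2
    ext δ t
    simp only [Geo.flip, res, LinearMap.comp_apply, LinearMap.add_apply, LinearMap.sub_apply,
      LinearMap.id_apply, LinearMap.smul_apply, LinearMap.coe_mk, AddHom.coe_mk, Pi.add_apply,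
      Pi.sub_apply, Pi.smul_apply, smul_eq_mul]
    split_ifs <;> ring

theorem scB_mem (a : ℝ) {U : Finset g.P} {F : g.E} (hF : F ∈ g.sub U) : g.scB a F ∈ g.sub U :=
  map_res_mem _ _ hF

theorem sum_split (N J : ℕ) (h : J ≤ N) {α : Type} [AddCommMonoid α] (f : ℕ → α) :
    ∑ j ∈ range (N + 1), f j = ∑ j ∈ range (J + 1), f j + ∑ j ∈ Ico (J + 1) (N + 1), f j := by
  rw [range_eq_Ico, range_eq_Ico, sum_Ico_consecutive _ (by omega) (by omega)]

namespace Dat

variable {L : ℕ} {q : Par} {N₀ Λ r N : ℕ} {Z w a b : ℝ} (D : Dat g A' L q N₀ Λ r N Z w a b)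
include D

theorem ok0 : (bare g A').Ok := ok_bare D.sign

theorem ok1 (k : g.K) : (one g A' k).Ok := ok_one D.nice.ok D.sign k

theorem scB_Br (j : ℕ) (U : Finset g.P) : g.scB Z (Br g A' L par0 j U) =
    br g A' (g.scB Z (g.cs L par0 j U)) ((bare g A').scB Z ((bare g A').cs L par0 j U))
      (fun k => (one g A' k).scB Z ((one g A' k).cs L par0 j U)) :=
  scB_br Z _ _ fun k => mem_univ_sub (cs_mem (D.ok1 k) L par0 j U).1

theorem scB_BrL (U : Finset g.P) : g.scB Z (BrL g A' L par0 N U) =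
    br g A' (g.scB Z (g.noF (g.last L par0 N U)))
      ((bare g A').scB Z ((bare g A').noF ((bare g A').last L par0 N U)))
      (fun k => (one g A' k).scB Z ((one g A' k).noF ((one g A' k).last L par0 N U))) :=
  scB_br Z _ _ fun k => mem_univ_sub (last_mem (D.ok1 k) L par0 N U)

theorem tau : (64 : ℝ) ≤ L ∧ (64 : ℝ) ≤ 2 * L := by
  have : (64 : ℝ) ≤ L := by exact_mod_cast D.hL
  exact ⟨this, by linarith⟩

theorem late0_le {j : ℕ} (h1 : g.J < j) (h2 : j ≤ N) :
    g.ps (w * sc L g.J) univ (∑ U, g.scB Z (Br g A' L par0 j U)) ≤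
      (Fintype.card g.K + 2) * ((1600 * N₀ + 1) * (b / 2 ^ (j - g.J))) := by
  classical
  rw [← sum_filter_of_ne (p := fun U => ¬ Gd g (sc L j) U)
    fun U _ hne hU => hne (by rw [D.good0 j hU, map_zero])]
  simp only [D.scB_Br]
  exact D.sum_bad h2 (D.wpos _) _ (fun U hU => (mem_filter.1 hU).2) _ _ _
    (fun U => scB_mem Z (cs_mem D.nice.ok L par0 j U).1)
    (fun U => scB_mem Z (cs_mem D.ok0 L par0 j U).1)
    (fun U k => scB_mem Z (cs_mem (D.ok1 k) L par0 j U).1) _ _ _ (fun _ => ps_nonneg _)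
    (fun _ => ps_nonneg _) (fun _ _ => ps_nonneg _) (fun _ _ => le_rfl) (fun _ _ => le_rfl)
    (fun _ _ _ => le_rfl) D.tau.2 (D.B.late0 j h1 h2) (D.B0.late0 j h1 h2)
    fun k => (D.B1 k).late0 j h1 h2

theorem late_le {j : ℕ} (h1 : g.J < j) (h2 : j ≤ N) :
    g.ps (w * sc L g.J) univ (∑ U, (Br g A' L q j U - g.scB Z (Br g A' L par0 j U))) ≤
      (Fintype.card g.K + 2) * ((1600 * N₀ + 1) * (a / 2 ^ j)) := by
  classical
  rw [← sum_filter_of_ne (p := fun U => ¬ Gd g (sc L j) U)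
    fun U _ hne hU => hne (by rw [D.good0 j hU, D.good j hU, map_zero, sub_zero])]
  simp only [D.scB_Br]
  simp only [Br, ← br_sub]
  exact D.sum_bad h2 (D.wpos _) _ (fun U hU => (mem_filter.1 hU).2) _ _ _
    (fun U => sub_mem (cs_mem D.nice.ok L q j U).1 (scB_mem Z (cs_mem D.nice.ok L par0 j U).1))
    (fun U => sub_mem (cs_mem D.ok0 L q j U).1 (scB_mem Z (cs_mem D.ok0 L par0 j U).1))
    (fun U k => sub_mem (cs_mem (D.ok1 k) L q j U).1
      (scB_mem Z (cs_mem (D.ok1 k) L par0 j U).1)) _ _ _ (fun _ => ps_nonneg _)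
    (fun _ => ps_nonneg _) (fun _ _ => ps_nonneg _) (fun _ _ => le_rfl) (fun _ _ => le_rfl)
    (fun _ _ _ => le_rfl) D.tau.2 (D.B.late j h1 h2) (D.B0.late j h1 h2)
    fun k => (D.B1 k).late j h1 h2

theorem sum_all {β ε : ℝ} (hβ : 0 < β) (F : Finset g.P → g.E) (F₀ : Finset g.P → (bare g A').E)
    (F₁ : Finset g.P → ∀ k, (one g A' k).E) (hF : ∀ U, F U ∈ g.sub U)
    (h₀ : ∀ U, F₀ U ∈ (bare g A').sub U) (h₁ : ∀ U k, F₁ U k ∈ (one g A' k).sub U)
    (e : ∑ U, g.ps β U (F U) ≤ ε) (e₀ : ∑ U, (bare g A').ps β U (F₀ U) ≤ ε)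
    (e₁ : ∀ k, ∑ U, (one g A' k).ps β U (F₁ U k) ≤ ε) :
    g.ps β univ (∑ U, br g A' (F U) (F₀ U) (F₁ U)) ≤ (Fintype.card g.K + 2) * ε := by
  refine (ps_sum D.nice.ok.sign hβ _ _).trans ?_
  refine (sum_le_sum fun U _ => ps_br D.nice.ok.sign D.sign hβ (hF U) (h₀ U) (h₁ U)).trans ?_
  rw [sum_add_distrib, sum_add_distrib, sum_comm]
  have b3 := sum_le_card_nsmul univ (fun k => ∑ U, (one g A' k).ps β U (F₁ U k)) _
    fun k _ => e₁ k
  rw [nsmul_eq_mul, card_univ] at b3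
  linarith

theorem last0_le : g.ps (w * sc L g.J) univ (∑ U, g.scB Z (BrL g A' L par0 N U)) ≤
    (Fintype.card g.K + 2) * b := by
  simp only [D.scB_BrL]
  exact D.sum_all (D.wpos _) _ _ _ (fun U => scB_mem Z (last_mem D.nice.ok L par0 N U))
    (fun U => scB_mem Z (last_mem D.ok0 L par0 N U))
    (fun U k => scB_mem Z (last_mem (D.ok1 k) L par0 N U)) D.B.last0 D.B0.last0
    fun k => (D.B1 k).last0

theorem last_le : g.ps (w * sc L g.J) univ
    (∑ U, (BrL g A' L q N U - g.scB Z (BrL g A' L par0 N U))) ≤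
      (Fintype.card g.K + 2) * (a / 2 ^ N) := by
  simp only [D.scB_BrL]
  simp only [BrL, ← br_sub]
  exact D.sum_all (D.wpos _) _ _ _
    (fun U => sub_mem (last_mem D.nice.ok L q N U) (scB_mem Z (last_mem D.nice.ok L par0 N U)))
    (fun U => sub_mem (last_mem D.ok0 L q N U) (scB_mem Z (last_mem D.ok0 L par0 N U)))
    (fun U k => sub_mem (last_mem (D.ok1 k) L q N U)
      (scB_mem Z (last_mem (D.ok1 k) L par0 N U))) D.B.last D.B0.last fun k => (D.B1 k).last

theorem a_nonneg : 0 ≤ a := by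
  have h := le_trans (sum_nonneg fun _ _ => ps_nonneg _) D.B.last
  have h2 : (0 : ℝ) < 2 ^ N := by positivity
  rwa [le_div_iff₀ h2, zero_mul] at h

theorem b_nonneg : 0 ≤ b := le_trans (sum_nonneg fun _ _ => ps_nonneg _) D.B.last0

theorem scB_WW : g.scB Z (WW g A' L par0 N) =
    ∑ j ∈ Ico (g.J + 1) (N + 1), ∑ U, g.scB Z (Br g A' L par0 j U) +
      ∑ U, g.scB Z (BrL g A' L par0 N U) := by
  rw [WW_eq, sum_split N g.J D.hJ, sum_eq_zero fun j hj => sum_eq_zero fun U _ =>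
    D.early0 (by have := mem_range.1 hj; omega) U, zero_add]
  simp only [map_add, map_sum]

/-- The size of the scaled free exponent. -/
theorem size : g.ps (w * sc L g.J) univ (g.scB Z (WW g A' L par0 N)) ≤
    (Fintype.card g.K + 2) * ((1600 * N₀ + 2) * b) := by
  have hA := D.nice.ok.sign
  rw [D.scB_WW]
  refine (ps_add hA (D.wpos _) _ _).trans ?_
  have h1 := (ps_sum hA (D.wpos g.J) (U := univ) (Ico (g.J + 1) (N + 1))
    fun j => ∑ U, g.scB Z (Br g A' L par0 j U)).trans (sum_le_sum fun j hj =>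
      D.late0_le (j := j) (by have := (mem_Ico.1 hj).1; omega) (by have := (mem_Ico.1 hj).2; omega))
  have h2 := D.last0_le
  have h3 := geo_tail' g.J (N + 1)
  have hb := D.b_nonneg
  have h4 : ∑ j ∈ Ico (g.J + 1) (N + 1), ((Fintype.card g.K : ℝ) + 2) *
      ((1600 * N₀ + 1) * (b / 2 ^ (j - g.J))) = (Fintype.card g.K + 2) * ((1600 * N₀ + 1) * b) *
        ∑ j ∈ Ico (g.J + 1) (N + 1), (1 : ℝ) / 2 ^ (j - g.J) := by
    rw [mul_sum]
    exact sum_congr rfl fun j _ => by ring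
  rw [h4] at h1
  have h5 : (0 : ℝ) ≤ (Fintype.card g.K + 2) * ((1600 * N₀ + 1) * b) := by positivity
  have h6 := mul_le_mul_of_nonneg_left h3 h5
  linarith

open Classical in
/-- The large bad sets at an early step. -/
theorem early_large {j : ℕ} (hj : j ≤ g.J) :
    g.ps (w * sc L g.J) univ (∑ U ∈ univ.filter (fun U => ¬ Gd g (sc L j) U ∧ r / 20 < stein U),
      Br g A' L q j U) ≤ (Fintype.card g.K + 2) * ((1600 * N₀ + 1) * (a * 4 ^ Fintype.card g.K *
        (Fintype.card g.K + 1).factorial)) * (1 / 2 ^ j * (1 / 4 ^ (g.J - j))) := by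
  set m := Fintype.card g.K with hm
  set Γ : ℝ := 4 * (L : ℝ) ^ (g.J - j) with hΓ
  have hL := D.hL
  have hΓ0 : 0 ≤ Γ ^ m := by positivity
  have hw := D.wpos j
  have hle : w * sc L j ≤ w * sc L g.J :=
    mul_le_mul_of_nonneg_left (by exact_mod_cast sc_mono (by omega) hj) D.hw.le
  have hq : 4 * (w * sc L g.J) / (w * sc L j) ≤ Γ := by
    rw [div_le_iff₀ hw, sc_eq hj, hΓ]
    push_cast
    exact le_of_eq (by ring)
  have hL0 : (0 : ℝ) ≤ L := Nat.cast_nonneg _
  have key : ∀ (f : Finset g.P → ℝ), (∀ U, 0 ≤ f U) → Anch (sc L j) (2 * L) f (a / 2 ^ j) →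
      Anch (sc L j) L (fun U => Γ ^ m * if r / 20 + 1 ≤ stein U then f U else 0)
        (Γ ^ m * (Real.exp (-(L * (r / 20 + 1 : ℕ) / sc L j)) * (a / 2 ^ j))) := by
    intro f hf hA z
    refine le_trans (le_of_eq ?_) (mul_le_mul_of_nonneg_left (anch_cut hL0 hf hA _ z) hΓ0)
    rw [mul_sum]
    exact sum_congr rfl fun U _ => by ring
  have nn : ∀ (p : Prop) [Decidable p] {x : ℝ}, 0 ≤ x → 0 ≤ if p then 0 else x := by
    intro p _ x hx
    split_ifs
    exacts [le_rfl, hx]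
  have nn' : ∀ (p : Prop) [Decidable p] {x : ℝ}, 0 ≤ x → 0 ≤ if p then x else 0 := by
    intro p _ x hx
    split_ifs
    exacts [hx, le_rfl]
  have h := D.sum_bad (hj.trans D.hJ) (D.wpos g.J)
    (univ.filter fun U => ¬ Gd g (sc L j) U ∧ r / 20 < stein U) (fun U hU => (mem_filter.1 hU).2.1)
    _ _ _ (fun U => (cs_mem D.nice.ok L q j U).1) (fun U => (cs_mem D.ok0 L q j U).1)
    (fun U k => (cs_mem (D.ok1 k) L q j U).1) _ _ _
    (fun U => mul_nonneg hΓ0 (nn' _ (nn _ (ps_nonneg _))))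
    (fun U => mul_nonneg hΓ0 (nn' _ (nn _ (ps_nonneg _))))
    (fun k U => mul_nonneg hΓ0 (nn' _ (nn _ (ps_nonneg _))))
    (fun U hU => by
      rw [if_pos (Nat.succ_le_of_lt (mem_filter.1 hU).2.2), if_neg (D.not_exc hj (mem_filter.1 hU).2.1).1]
      exact ps_wt D.nice.ok.sign hw hle hq le_rfl (cs_mem D.nice.ok L q j U).1)
    (fun U hU => by
      rw [if_pos (Nat.succ_le_of_lt (mem_filter.1 hU).2.2), if_neg (D.not_exc hj (mem_filter.1 hU).2.1).2.1]
      exact ps_wt (g := bare g A') D.sign hw hle hq (by simp) (cs_mem D.ok0 L q j U).1)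
    (fun k U hU => by
      rw [if_pos (Nat.succ_le_of_lt (mem_filter.1 hU).2.2), if_neg ((D.not_exc hj (mem_filter.1 hU).2.1).2.2 k)]
      exact ps_wt (g := one g A' k) D.sign hw hle hq
        (by rw [Fintype.card_unit]; exact Fintype.card_pos_iff.2 ⟨k⟩) (cs_mem (D.ok1 k) L q j U).1)
    D.tau.1 (key _ (fun U => nn _ (ps_nonneg _)) (D.B.early j hj))
    (key _ (fun U => nn _ (ps_nonneg _)) (D.B0.early j hj))
    fun k => key _ (fun U => nn _ (ps_nonneg _)) ((D.B1 k).early j hj)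
  refine h.trans ?_
  have h2 := gain (L := L) (by omega) hj D.hr m
  have ha := D.a_nonneg
  have h3 : Γ ^ m * (Real.exp (-(L * (r / 20 + 1 : ℕ) / sc L j)) * (a / 2 ^ j)) ≤
      4 ^ m * (m + 1).factorial * (1 / 4 ^ (g.J - j)) * (a / 2 ^ j) := by
    rw [← mul_assoc]
    exact mul_le_mul_of_nonneg_right h2 (by positivity)
  calc _ ≤ ((m : ℝ) + 2) * ((1600 * N₀ + 1) *
        (4 ^ m * (m + 1).factorial * (1 / 4 ^ (g.J - j)) * (a / 2 ^ j))) := by gcongr
    _ = _ := by ring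

open Classical in
/-- The medium bad sets at an early step. -/
theorem early_medium {j : ℕ} (hj : j ≤ g.J) :
    ∑ U ∈ univ.filter (fun U => ¬ Gd g (sc L j) U ∧ ¬ r / 20 < stein U), Br g A' L q j U =
      (∑ f ∈ univ.filter (fun f => flux g.A f = -1),
        (g.sig L q j f (r / 20) - (bare g A').sig L q j f (r / 20))) • (1 : g.E) := by
  have hL := D.hL
  have h1 := sc_mono (L := L) (by omega) hj
  have h2 := D.hr
  have h3 := D.hM
  have h8 := eight_le_sc (L := L) (by omega) j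
  set B : g.P → Finset (Finset g.P) := fun f => univ.filter fun U =>
    stein U ≤ r / 20 ∧ ∃ x ∈ U, tdist f x ≤ 2 * stein U + 3 * sc L j with hB
  have hS : univ.filter (fun U => ¬ Gd g (sc L j) U ∧ ¬ r / 20 < stein U) =
      (univ.filter fun f => flux g.A f = -1).biUnion B := by
    ext U
    simp only [mem_filter, mem_univ, true_and, mem_biUnion, hB, not_lt]
    constructor
    · rintro ⟨hU, hs⟩
      rcases bad_cases D.nice.ok.sign hU with ⟨f, hf, hx⟩ | h | ⟨k, k', hne, hk, hk'⟩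
      · exact ⟨f, hf, hs, hx⟩
      · omega
      · have := D.nice.sep.ss _ _ hne
        have := tdist_le_stein hk hk'
        omega
    · rintro ⟨f, hf, hs, x, hx, hd⟩
      refine ⟨fun hU => ?_, hs⟩
      have := hU.1.1 x hx f hd
      rw [hf] at this
      norm_num at this
  rw [hS, sum_biUnion, sum_smul]
  · refine sum_congr rfl fun f hf => ?_
    rw [Geo.sig, Geo.sig, ← sum_sub_distrib, sum_smul]
    refine sum_congr (by rw [hB]) fun U hU => ?_
    obtain ⟨hs, x, hx, hd⟩ := (mem_filter.1 hU).2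
    have hk : ∀ k, (g.src k).y ∉ U := by
      intro k hk
      have := D.nice.sep.fs f k (mem_filter.1 hf).2
      have := tdist_le_stein hx hk
      have := tdist_triangle f x (g.src k).y
      omega
    obtain ⟨hm, hn⟩ := cs_mem D.nice.ok L q j U
    rw [Br, br, sum_eq_zero fun k _ => by
      rw [cf_not_mem (g := one g A' k) (cs_mem (D.ok1 k) L q j U).1 (hk k), zero_smul], sub_zero,
      sub_smul, ← ag_apply, ← src_zero hm hn hk]
    rfl
  · intro f hf f' hf' hne
    refine disjoint_left.2 fun U hU hU' => ?_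
    obtain ⟨hs, x, hx, hd⟩ := (mem_filter.1 hU).2
    obtain ⟨-, x', hx', hd'⟩ := (mem_filter.1 hU').2
    have := D.nice.sep.ff f f' (mem_filter.1 (mem_coe.1 hf)).2 (mem_filter.1 (mem_coe.1 hf')).2 hne
    have := tdist_le_stein hx hx'
    have := tdist_triangle f x f'
    have := tdist_triangle x x' f'
    rw [tdist_comm f' x'] at hd'
    omega

open Classical in
/-- The exponent is the scaled free exponent up to the constants of the fluxes. -/
theorem err : g.ps (w * sc L g.J) univ (WW g A' L q N -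
    (∑ f ∈ univ.filter (fun f => flux g.A f = -1), ss g A' L q g.J f (r / 20)) • 1 -
      g.scB Z (WW g A' L par0 N)) ≤ (Fintype.card g.K + 2) * ((1600 * N₀ + 1) *
        (2 * 4 ^ Fintype.card g.K * (Fintype.card g.K + 1).factorial + 2)) * (a / 2 ^ g.J) := by
  have hA := D.nice.ok.sign
  have hβ := D.wpos g.J
  have e1 : ∀ j ∈ range (g.J + 1), ∑ U, Br g A' L q j U =
      ∑ U ∈ univ.filter (fun U => ¬ Gd g (sc L j) U ∧ r / 20 < stein U), Br g A' L q j U +
      (∑ f ∈ univ.filter (fun f => flux g.A f = -1),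
        (g.sig L q j f (r / 20) - (bare g A').sig L q j f (r / 20))) • (1 : g.E) := by
    intro j hj
    rw [← D.early_medium (by have := mem_range.1 hj; omega), ← filter_filter, ← filter_filter,
      sum_filter_add_sum_filter_not]
    exact (sum_filter_of_ne (p := fun U => ¬ Gd g (sc L j) U)
      fun U _ hne hU => hne (D.good j hU)).symm
  have e2 : WW g A' L q N -
      (∑ f ∈ univ.filter (fun f => flux g.A f = -1), ss g A' L q g.J f (r / 20)) • 1 -
      g.scB Z (WW g A' L par0 N) =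
      ∑ j ∈ range (g.J + 1), ∑ U ∈ univ.filter (fun U => ¬ Gd g (sc L j) U ∧ r / 20 < stein U),
        Br g A' L q j U +
      ∑ j ∈ Ico (g.J + 1) (N + 1), ∑ U, (Br g A' L q j U - g.scB Z (Br g A' L par0 j U)) +
      ∑ U, (BrL g A' L q N U - g.scB Z (BrL g A' L par0 N U)) := by
    rw [D.scB_WW, WW_eq, sum_split N g.J D.hJ, sum_congr rfl e1, sum_add_distrib, ← sum_smul,
      sum_comm (s := range (g.J + 1)) (t := univ.filter fun f => flux g.A f = -1)]
    simp only [sum_sub_distrib, ss]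
    abel
  rw [e2]
  refine (ps_add hA hβ _ _).trans ((add_le_add (ps_add hA hβ _ _) D.last_le).trans ?_)
  have h1 := (ps_sum hA hβ (U := univ) (range (g.J + 1)) _).trans
    (sum_le_sum fun j hj => D.early_large (j := j) (by have := mem_range.1 hj; omega))
  have h2 := (ps_sum hA hβ (U := univ) (Ico (g.J + 1) (N + 1)) _).trans (sum_le_sum fun j hj =>
    D.late_le (j := j) (by have := (mem_Ico.1 hj).1; omega) (by have := (mem_Ico.1 hj).2; omega))
  rw [← mul_sum] at h1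
  have ha := D.a_nonneg
  set m := Fintype.card g.K
  have h3 : ∑ j ∈ Ico (g.J + 1) (N + 1), ((m : ℝ) + 2) * ((1600 * N₀ + 1) * (a / 2 ^ j)) =
      (m + 2) * ((1600 * N₀ + 1) * a) * ∑ j ∈ Ico (g.J + 1) (N + 1), (1 : ℝ) / 2 ^ j := by
    rw [mul_sum]
    exact sum_congr rfl fun j _ => by ring
  rw [h3] at h2
  have h4 := mul_le_mul_of_nonneg_left (geo_head g.J)
    (by positivity : (0 : ℝ) ≤ (m + 2) * ((1600 * N₀ + 1) * (a * 4 ^ m * (m + 1).factorial)))
  have h5 := mul_le_mul_of_nonneg_left (geo_tail g.J (N + 1))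
    (by positivity : (0 : ℝ) ≤ (m + 2) * ((1600 * N₀ + 1) * a))
  have h6 : a / 2 ^ N ≤ a / 2 ^ g.J :=
    div_le_div_of_nonneg_left ha (by positivity) (pow_le_pow_right₀ one_le_two D.hJ)
  have h7 : ((m : ℝ) + 2) * (a / 2 ^ N) ≤ (m + 2) * ((1600 * N₀ + 1) * (a / 2 ^ g.J)) := by
    refine mul_le_mul_of_nonneg_left (h6.trans (le_mul_of_one_le_left (by positivity) ?_))
      (by positivity)
    have : (0 : ℝ) ≤ N₀ := Nat.cast_nonneg _
    linarith
  have h8 : ((m : ℝ) + 2) * ((1600 * N₀ + 1) * (2 * 4 ^ m * (m + 1).factorial + 2)) * (a / 2 ^ g.J)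
      = (m + 2) * ((1600 * N₀ + 1) * (a * 4 ^ m * (m + 1).factorial)) * (2 / 2 ^ g.J) +
        (m + 2) * ((1600 * N₀ + 1) * a) * (1 / 2 ^ g.J) +
        (m + 2) * ((1600 * N₀ + 1) * (a / 2 ^ g.J)) := by ring
  rw [h8]
  linarith

end Dat

end Vale.Agent.P144Z.Mn
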