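import Vale.Agent.P144Z.M.Est2

/-!
# The main estimate: the constant of a flux
-/

namespace Vale.Agent.P144Z.Mn

open Finset Matrix Geo

variable {g : Geo}

open Classical in
theorem sig_sum (hg : g.Ok) (hon : ∀ k, (g.src k).on = true) {L : ℕ} (hL : 64 ≤ L) (q : Par) {j : ℕ}
    {β ε : ℝ} (hβ : 0 < β)
    (hA : Anch (sc L j) (2 * L) (fun U => if g.Exc U then 0 else g.ps β U (g.cs L q j U)) ε)
    {f : g.P} {r : ℕ} (hf : ∀ k, r < tdist f (g.src k).y) (hr : 8 * sc L j ≤ r) (T : ℕ)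
    (S : Finset (Finset g.P)) (hS : ∀ U ∈ S, T ≤ stein U ∧ stein U ≤ r / 20 ∧
      ∃ x ∈ U, tdist f x ≤ 2 * stein U + 3 * sc L j) :
    |∑ U ∈ S, aug (Ev.val (g.cs L q j U))| ≤ 1600 * (Real.exp (-(L * T / sc L j)) * ε) := by
  have hL' : (64 : ℝ) ≤ L := by exact_mod_cast hL
  have nn : ∀ U, 0 ≤ if g.Exc U then 0 else g.ps β U (g.cs L q j U) := by
    intro U
    split_ifs
    exacts [le_rfl, ps_nonneg _]
  have h := near_sum (le_trans (by norm_num) (eight_le_sc (by omega) j)) (by linarith)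
    (fun U => by
      split_ifs
      exacts [le_rfl, ps_nonneg _, le_rfl]) (anch_cut (by linarith) nn hA T) f S
    fun U hU => (hS U hU).2.2
  refine (abs_sum_le_sum_abs _ _).trans (le_trans (sum_le_sum fun U hU => ?_) h)
  obtain ⟨h1, h2, x, hx, hd⟩ := hS U hU
  have he : ¬ g.Exc U := by
    intro he
    obtain ⟨k, hk, -⟩ := exc_sub hg hon he
    have := hf k
    have := tdist_le_stein hx hk
    have := tdist_triangle f x (g.src k).y
    omega
  rw [if_pos h1, if_neg he]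
  exact ps_aug hg.sign hβ (cs_mem hg L q j U).1

open Classical in
theorem sig_le (hg : g.Ok) (hon : ∀ k, (g.src k).on = true) {L : ℕ} (hL : 64 ≤ L) (q : Par) {j : ℕ}
    {β ε : ℝ} (hβ : 0 < β)
    (hA : Anch (sc L j) (2 * L) (fun U => if g.Exc U then 0 else g.ps β U (g.cs L q j U)) ε)
    {f : g.P} {r : ℕ} (hf : ∀ k, r < tdist f (g.src k).y) (hr : 8 * sc L j ≤ r) :
    |g.sig L q j f (r / 20)| ≤ 1600 * ε := by
  have h := sig_sum hg hon hL q hβ hA hf hr 0 (univ.filter fun U : Finset g.P =>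
    stein U ≤ r / 20 ∧ ∃ x ∈ U, tdist f x ≤ 2 * stein U + 3 * sc L j)
    fun U hU => ⟨Nat.zero_le _, (mem_filter.1 hU).2⟩
  simpa [Geo.sig] using h

open Classical in
theorem sig_diff (hg : g.Ok) (hon : ∀ k, (g.src k).on = true) {L : ℕ} (hL : 64 ≤ L) (q : Par)
    {j : ℕ} {β ε : ℝ} (hβ : 0 < β)
    (hA : Anch (sc L j) (2 * L) (fun U => if g.Exc U then 0 else g.ps β U (g.cs L q j U)) ε)
    {f : g.P} {r : ℕ} (hf : ∀ k, r < tdist f (g.src k).y) (hr : 8 * sc L j ≤ r) {T : ℕ}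
    (hT : T ≤ r / 20) : |g.sig L q j f (r / 20) - g.sig L q j f T| ≤
      1600 * (Real.exp (-(L * (T + 1 : ℕ) / sc L j)) * ε) := by
  rw [Geo.sig, Geo.sig, ← sum_sdiff_eq_sub (fun U hU => mem_filter.2 ⟨mem_univ _,
    (mem_filter.1 hU).2.1.trans hT, (mem_filter.1 hU).2.2⟩)]
  refine sig_sum hg hon hL q hβ hA hf hr (T + 1) _ fun U hU => ?_
  obtain ⟨h1, h2⟩ := mem_sdiff.1 hU
  obtain ⟨h3, h4⟩ := (mem_filter.1 h1).2
  refine ⟨?_, h3, h4⟩
  by_contra h
  exact h2 (mem_filter.2 ⟨mem_univ _, by omega, h4⟩)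

theorem tdist_shf {M M' : ℕ} [NeZero M] [NeZero M'] (c : Tor M) (c' : Tor M') {x : Tor M} {T : ℕ}
    (hx : tdist x c ≤ T) (hT : 4 * T + 1 ≤ M') : tdist (shf c c' x) c' = tdist x c := by
  obtain ⟨h1, h2⟩ := G.lft_bound hx
  rw [G.tdist_def, shf, G.lft_add_sub c' (by omega) (by omega), G.tdist_def]

theorem shf_center {M M' : ℕ} [NeZero M] [NeZero M'] (c : Tor M) (c' : Tor M') :
    shf c c' c = c' := by
  have : lft (0 : Tor M) = 0 := by simp [lft]
  rw [shf, sub_self, this, G.prj_zero, add_zero]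

namespace Dat

variable {A' : Gauge g.M} {L : ℕ} {q : Par} {N₀ Λ r N : ℕ} {Z w a b : ℝ}
  (D : Dat g A' L q N₀ Λ r N Z w a b)
include D

theorem term_le {f : g.P} (hf : flux g.A f = -1) {j : ℕ} (hj : j ≤ g.J) :
    |g.sig L q j f (r / 20) - (bare g A').sig L q j f (r / 20)| ≤ 3200 * a * (1 / 2 ^ j) := by
  have hL := D.hL
  have hr : 8 * sc L j ≤ r := by
    have := sc_mono (L := L) (by omega) hj
    have := D.hr
    omega
  have h1 := sig_le D.nice.ok D.nice.on hL q (D.wpos j) (D.B.early j hj)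
    (fun k => D.nice.sep.fs f k hf) hr
  have h2 := sig_le (g := bare g A') D.ok0 (fun k => k.elim) hL q (D.wpos j) (D.B0.early j hj)
    (f := f) (fun k => k.elim) hr
  refine (abs_sub _ _).trans ?_
  have : 3200 * a * (1 / 2 ^ j) = 1600 * (a / 2 ^ j) + 1600 * (a / 2 ^ j) := by ring
  linarith

theorem ss_le {f : g.P} (hf : flux g.A f = -1) : |ss g A' L q g.J f (r / 20)| ≤ 6400 * a := by
  refine (abs_sum_le_sum_abs _ _).trans ((sum_le_sum fun j hj =>
    D.term_le hf (j := j) (by have := mem_range.1 hj; omega)).trans ?_)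
  rw [← mul_sum]
  have := mul_le_mul_of_nonneg_left (geo_all (g.J + 1))
    (by have := D.a_nonneg; positivity : 0 ≤ 3200 * a)
  linarith

theorem ss_close {f : g.P} (hf : flux g.A f = -1) {J₁ r₁ : ℕ} (hJ : J₁ ≤ g.J)
    (h1 : 8 * sc L J₁ ≤ r₁) (h2 : r₁ ≤ r) :
    |ss g A' L q g.J f (r / 20) - ss g A' L q J₁ f (r₁ / 20)| ≤ 9600 * (a / 2 ^ J₁) := by
  have hL := D.hL
  have ha := D.a_nonneg
  have key : ∀ j ∈ range (J₁ + 1),
      |(g.sig L q j f (r / 20) - (bare g A').sig L q j f (r / 20)) -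
        (g.sig L q j f (r₁ / 20) - (bare g A').sig L q j f (r₁ / 20))| ≤
        3200 * a * (1 / 2 ^ j * (1 / 4 ^ (J₁ - j))) := by
    intro j hj
    have hj1 : j ≤ J₁ := by have := mem_range.1 hj; omega
    have hr : 8 * sc L j ≤ r := by
      have := sc_mono (L := L) (by omega) hj1
      omega
    have hT : r₁ / 20 ≤ r / 20 := Nat.div_le_div_right h2
    have e1 := sig_diff D.nice.ok D.nice.on hL q (D.wpos j) (D.B.early j (hj1.trans hJ))
      (fun k => D.nice.sep.fs f k hf) hr hT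
    have e2 := sig_diff (g := bare g A') D.ok0 (fun k => k.elim) hL q (D.wpos j)
      (D.B0.early j (hj1.trans hJ)) (f := f) (fun k => k.elim) hr hT
    have e3 := gain (L := L) (by omega) hj1 h1 0
    simp only [pow_zero, one_mul, zero_add, Nat.factorial_one, Nat.cast_one] at e3
    have e4 := mul_le_mul_of_nonneg_right e3 (by positivity : 0 ≤ a / 2 ^ j)
    rw [sub_sub_sub_comm]
    refine (abs_sub _ _).trans ?_
    have : 3200 * a * (1 / 2 ^ j * (1 / 4 ^ (J₁ - j))) =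
        3200 * (1 / 4 ^ (J₁ - j) * (a / 2 ^ j)) := by ring
    linarith
  rw [ss, ss, sum_split g.J J₁ hJ, add_sub_right_comm, ← sum_sub_distrib]
  refine (abs_add_le _ _).trans ?_
  have b1 := (abs_sum_le_sum_abs _ _).trans (sum_le_sum key)
  have b2 := (abs_sum_le_sum_abs _ (Ico (J₁ + 1) (g.J + 1))).trans (sum_le_sum fun j hj =>
    D.term_le hf (j := j) (by have := (mem_Ico.1 hj).2; omega))
  rw [← mul_sum] at b1 b2
  have b3 := mul_le_mul_of_nonneg_left (geo_head J₁) (by positivity : 0 ≤ 3200 * a)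
  have b4 := mul_le_mul_of_nonneg_left (geo_tail J₁ (g.J + 1)) (by positivity : 0 ≤ 3200 * a)
  have : 9600 * (a / 2 ^ J₁) = 3200 * a * (2 / 2 ^ J₁) + 3200 * a * (1 / 2 ^ J₁) := by ring
  linarith

theorem ss_univ {g' : Geo} {A'' : Gauge g'.M} {N₁ Λ₁ r' N' : ℕ} {Z' w' a' b' : ℝ}
    (D' : Dat g' A'' L q N₁ Λ₁ r' N' Z' w' a' b') (hrr : r ≤ r') {f : g.P} (hf : flux g.A f = -1)
    {f' : g'.P} (hf' : flux g'.A f' = -1) :
    ss g' A'' L q g.J f' (r / 20) = ss g A' L q g.J f (r / 20) := by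
  have hL := D.hL
  have h1 := D.hr
  have h2 := D.hM
  have h3 := D'.hM
  have h8 := eight_le_sc (L := L) (by omega) g.J
  refine sum_congr rfl fun j hj => ?_
  have hT : 4 * (r / 20) + 6 * sc L j ≤ r := by
    have := sc_mono (L := L) (by omega) (show j ≤ g.J by have := mem_range.1 hj; omega)
    omega
  have m1 : Match g g' f f' r := by
    refine ⟨by omega, by omega, fun x hx => ?_⟩
    by_cases he : x = f
    · rw [he, shf_center, hf, hf']
    · have e1 : flux g.A x = 1 := (flux_sign D.nice.ok.sign x).resolve_right fun h => by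
        have := D.nice.sep.ff x f h hf he
        omega
      have e2 := tdist_shf f f' hx (by omega)
      rw [e1]
      refine (flux_sign D'.nice.ok.sign _).resolve_right fun h => ?_
      have := D'.nice.sep.ff _ f' h hf' fun h' => by
        rw [h', tdist_self] at e2
        exact he (tdist_eq_zero e2.symm)
      omega
  have m2 : Match (bare g A') (bare g' A'') f f' r :=
    ⟨by change 4 * r + 1 ≤ g.M; omega, by change 4 * r + 1 ≤ g'.M; omega,
      fun x _ => by rw [D.flat, D'.flat]⟩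
  rw [ag_sig (by omega) D.nice.ok D'.nice.ok D.ok D.hR D'.hR j _ m1 hT,
    ag_sig (by omega) D.ok0 D'.ok0 D.ok D.hR D'.hR j _ m2 hT]

end Dat

end Vale.Agent.P144Z.Mn
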